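import Vale.Agent.N074.Plane

/-!
# P074: strips with alternately tilted faces below one large cell
-/

open MeasureTheory Set
open scoped ENNReal NNReal

namespace Vale.Agent.N074

/-- The position at height `y` of the face number `j`. -/
noncomputable def ee (A h κ s y : ℝ) (j : ℕ) : ℝ :=
  A + (j + 1) * h + κ + (-1) ^ j * s * (y - 1 / 4)

/-- The maximum of the affine functions of the strips. -/
noncomputable def low (N : ℕ) (η A h κ s : ℝ) (p : ℝ × ℝ) : ℝ :=
  s * η / 2 * (p.2 - 1 / 4) + η * FF N (ee A h κ s p.2) p.1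

/-- The index of the cell of `p`; the index `N + 1` is the large cell on top. -/
noncomputable def cellIx (N : ℕ) (η A h κ s c : ℝ) (p : ℝ × ℝ) : ℕ :=
  if low N η A h κ s p ≤ p.2 - c then N + 1 else ix N (ee A h κ s p.2) p.1

/-- The affine function of the strip number `i`. -/
noncomputable def aff (η A h κ s : ℝ) (i : ℕ) (x y : ℝ) : ℝ :=
  s * η / 2 * (y - 1 / 4) + η * ∑ j ∈ Finset.range i, (x - ee A h κ s y j)

/-- First coordinate of the site number `i`. -/
noncomputable def sx (N : ℕ) (η : ℝ) (i : ℕ) : ℝ := if i = N + 1 then 0 else i * η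

/-- Second coordinate of the site number `i`. -/
noncomputable def sy (N : ℕ) (ζ : ℝ) (i : ℕ) : ℝ := if i = N + 1 then 1 else (-1) ^ i * ζ

/-- The weight of the site number `i`. -/
noncomputable def wt (N : ℕ) (η A h κ s c : ℝ) (i : ℕ) : ℝ :=
  if i = N + 1 then c else - aff η A h κ s i 0 0

variable {N : ℕ} {η A h κ s c : ℝ}

theorem sg_cases (j : ℕ) : ((-1 : ℝ) ^ j = 1) ∨ ((-1 : ℝ) ^ j = -1) := neg_one_pow_eq_or ℝ j

theorem aff_eq (i : ℕ) (x y : ℝ) :
    aff η A h κ s i x y = i * η * x + (-1) ^ i * (s * η / 2) * y + aff η A h κ s i 0 0 := by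
  induction i with
  | zero => simp only [aff, Finset.range_zero, Finset.sum_empty]; push_cast; ring
  | succ i ih =>
    have e : ∀ x y, aff η A h κ s (i + 1) x y =
        aff η A h κ s i x y + η * (x - ee A h κ s y i) := by
      intro x y
      simp only [aff, Finset.sum_range_succ]
      ring
    rw [e, e, ih]
    simp only [ee, pow_succ]
    push_cast
    ring

theorem ee_mono (hs : 0 ≤ s) (hh : 2 * s ≤ h) {y : ℝ} (h0 : 0 ≤ y) (h1 : y ≤ 1) :
    Monotone (ee A h κ s y) := by
  refine monotone_nat_of_le_succ fun j => ?_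
  simp only [ee, pow_succ]
  push_cast
  rcases sg_cases j with e | e <;> rw [e] <;> nlinarith

theorem continuous_low : Continuous (low N η A h κ s) := by
  unfold low FF ee
  fun_prop

theorem measurable_cellIx : Measurable (cellIx N η A h κ s c) := by
  unfold cellIx
  refine Measurable.ite (measurableSet_le continuous_low.measurable (by fun_prop))
    measurable_const ?_
  unfold ix
  refine Finset.measurable_sum _ fun j _ => Measurable.ite ?_ measurable_const measurable_const
  exact measurableSet_le (by unfold ee; fun_prop) measurable_fst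

theorem cellIx_le (p : ℝ × ℝ) : cellIx N η A h κ s c p ≤ N + 1 := by
  unfold cellIx
  split_ifs
  · exact le_rfl
  · exact (ix_le _ _ _).trans (Nat.le_succ N)

theorem cellIx_top (p : ℝ × ℝ) :
    cellIx N η A h κ s c p = N + 1 ↔ low N η A h κ s p ≤ p.2 - c := by
  unfold cellIx
  split_ifs with hp
  · simp [hp]
  · have := ix_le N (ee A h κ s p.2) p.1
    simp only [hp, iff_false]
    omega

theorem cellIx_le_N (p : ℝ × ℝ) :
    cellIx N η A h κ s c p ≤ N ↔ ¬ low N η A h κ s p ≤ p.2 - c := by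
  rw [← cellIx_top]
  have := cellIx_le (N := N) (η := η) (A := A) (h := h) (κ := κ) (s := s) (c := c) p
  omega

theorem cellIx_le_iff (hs : 0 ≤ s) (hh : 2 * s ≤ h) {p : ℝ × ℝ} (hp : p ∈ Sq) {j : ℕ}
    (hj : j < N) : cellIx N η A h κ s c p ≤ j ↔
      p.2 - c < low N η A h κ s p ∧ p.1 < ee A h κ s p.2 j := by
  unfold cellIx
  split_ifs with hl
  · constructor
    · intro h'
      omega
    · intro h'
      exact absurd hl (not_le.2 h'.1)
  · rw [ix_le_iff (ee_mono hs hh hp.2.1 hp.2.2) _ hj]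
    exact ⟨fun h' => ⟨not_le.1 hl, h'⟩, fun h' => h'.2⟩

/-- The cell of `p` maximises the affine functions. -/
theorem argmax (hη : 0 ≤ η) (hs : 0 ≤ s) (hh : 2 * s ≤ h) {p : ℝ × ℝ} (hp : p ∈ Sq) {i : ℕ}
    (hi : i ≤ N + 1) :
    sx N η i * p.1 + sy N (s * η / 2) i * p.2 - wt N η A h κ s c i ≤
      sx N η (cellIx N η A h κ s c p) * p.1 + sy N (s * η / 2) (cellIx N η A h κ s c p) * p.2 -
        wt N η A h κ s c (cellIx N η A h κ s c p) := by
  have e1 : ∀ i, i ≤ N → sx N η i * p.1 + sy N (s * η / 2) i * p.2 - wt N η A h κ s c i =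
      aff η A h κ s i p.1 p.2 := by
    intro i hi
    have : i ≠ N + 1 := by omega
    simp only [sx, sy, wt, if_neg this]
    rw [aff_eq i p.1 p.2]
    ring
  have e2 : sx N η (N + 1) * p.1 + sy N (s * η / 2) (N + 1) * p.2 - wt N η A h κ s c (N + 1) =
      p.2 - c := by
    simp [sx, sy, wt]
  have e3 : ∀ i, i ≤ N → aff η A h κ s i p.1 p.2 ≤ low N η A h κ s p := by
    intro i hi
    unfold aff low
    have := mul_le_mul_of_nonneg_left (sum_le_FF hi (ee A h κ s p.2) p.1) hη
    linarith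
  have e4 : ∀ M : ℝ, p.2 - c ≤ M → low N η A h κ s p ≤ M →
      sx N η i * p.1 + sy N (s * η / 2) i * p.2 - wt N η A h κ s c i ≤ M := by
    intro M h1 h2
    rcases hi.eq_or_lt with e | e
    · rw [e, e2]
      exact h1
    · rw [e1 i (by omega)]
      exact (e3 i (by omega)).trans h2
  by_cases hl : low N η A h κ s p ≤ p.2 - c
  · rw [(cellIx_top p).2 hl, e2]
    exact e4 _ le_rfl hl
  · have e5 : cellIx N η A h κ s c p = ix N (ee A h κ s p.2) p.1 := by
      unfold cellIx
      rw [if_neg hl]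
    have e6 : aff η A h κ s (ix N (ee A h κ s p.2) p.1) p.1 p.2 = low N η A h κ s p := by
      unfold aff low
      rw [sum_ix (ee_mono hs hh hp.2.1 hp.2.2)]
    rw [e5, e1 _ (ix_le _ _ _), e6]
    exact e4 _ (not_le.1 hl).le le_rfl

/-- The parameters of one scale. -/
structure Par (θ s η A : ℝ) (N : ℕ) : Prop where
  θ0 : 0 < θ
  θ1 : θ ≤ 1 / 100
  s0 : 0 < s
  η0 : 0 < η
  ηN : η * N = θ
  hA : 1 / 3 ≤ A
  hB : A + (N + 1) * (2 * s) ≤ 2 / 3
  ev : Even N
  big : 4 ≤ θ * N

/-- The position of the vertical face number `j`. -/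
noncomputable def cc (A s : ℝ) (j : ℕ) : ℝ := A + (j + 1) * (2 * s)

theorem ee_zero (y : ℝ) : ee A (2 * s) 0 0 y = cc A s := by
  ext j
  simp [ee, cc]

theorem low_zero (p : ℝ × ℝ) : low N η A (2 * s) 0 0 p = η * FF N (cc A s) p.1 := by
  simp [low, ee_zero]

namespace Par

variable {θ : ℝ} (P : Par θ s η A N)
include P

theorem N1 : (1 : ℝ) ≤ N := by
  have h1 := P.big
  have h2 := P.θ1
  have h3 : (0 : ℝ) ≤ N := Nat.cast_nonneg N
  nlinarith

theorem η_le : η ≤ θ := by
  have := P.N1
  have := P.η0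
  have := P.ηN
  nlinarith

theorem s_le : s ≤ 1 / 12 := by
  have := P.N1
  have := P.hA
  have := P.hB
  have := P.s0
  nlinarith

theorem cc_ge (j : ℕ) : A + 2 * s ≤ cc A s j := by
  have := P.s0
  have : (0 : ℝ) ≤ j := Nat.cast_nonneg j
  unfold cc
  nlinarith

theorem cc_le {j : ℕ} (hj : j < N) : cc A s j + 2 * s ≤ A + (N + 1) * (2 * s) := by
  have := P.s0
  have : (j : ℝ) + 1 ≤ N := by exact_mod_cast hj
  unfold cc
  nlinarith

theorem cc_lt {l j : ℕ} (hlj : l < j) : cc A s l + 2 * s ≤ cc A s j := by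
  have := P.s0
  have : (l : ℝ) + 1 ≤ j := by exact_mod_cast hlj
  unfold cc
  nlinarith

theorem ee_near {y : ℝ} (h0 : 0 ≤ y) (h1 : y ≤ 1) (j : ℕ) :
    |ee A (2 * s) (θ * s) s y j - cc A s j| ≤ s := by
  have := P.s0
  have := P.θ0
  have := P.θ1
  simp only [ee, cc]
  rw [abs_le]
  rcases sg_cases j with e | e <;> rw [e] <;> constructor <;> nlinarith

theorem lu_nonneg (p : ℝ × ℝ) : 0 ≤ low N η A (2 * s) 0 0 p := by
  rw [low_zero]
  exact mul_nonneg P.η0.le (FF_nonneg _ _ _)

theorem lu_le {p : ℝ × ℝ} (hp : p.1 ≤ 1) : low N η A (2 * s) 0 0 p ≤ θ := by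
  rw [low_zero, ← P.ηN]
  refine mul_le_mul_of_nonneg_left (FF_le fun j => ?_) P.η0.le
  have := P.cc_ge j
  have := P.hA
  have := P.s0
  linarith

theorem lv_near {p : ℝ × ℝ} (hp : p ∈ Sq) :
    |low N η A (2 * s) (θ * s) s p - low N η A (2 * s) 0 0 p| ≤ 2 * (θ * s) := by
  have h1 := FF_le_add (N := N) (P.ee_near hp.2.1 hp.2.2) p.1
  have h2 := FF_le_add (N := N) (e := cc A s) (e' := ee A (2 * s) (θ * s) s p.2) (D := s)
    (fun j => by rw [abs_sub_comm]; exact P.ee_near hp.2.1 hp.2.2 j) p.1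
  have h3 := mul_le_mul_of_nonneg_left h1 P.η0.le
  have h4 := mul_le_mul_of_nonneg_left h2 P.η0.le
  have h5 : η * (N * s) = θ * s := by rw [← mul_assoc, P.ηN]
  have h6 : s * η ≤ θ * s := by
    rw [mul_comm]
    exact mul_le_mul_of_nonneg_right P.η_le P.s0.le
  have h7 : 0 < s * η := mul_pos P.s0 P.η0
  have h8 := hp.2.1
  have h9 := hp.2.2
  rw [low_zero]
  unfold low
  rw [abs_le]
  constructor <;> nlinarith

theorem lv_inj {x y y' : ℝ} (e : low N η A (2 * s) (θ * s) s (x, y) - y =
    low N η A (2 * s) (θ * s) s (x, y') - y') : y = y' := by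
  have key : ∀ y y' : ℝ, y < y' → low N η A (2 * s) (θ * s) s (x, y') - y' <
      low N η A (2 * s) (θ * s) s (x, y) - y := by
    intro y y' hlt
    have h1 := FF_le_add (N := N) (e := ee A (2 * s) (θ * s) s y')
      (e' := ee A (2 * s) (θ * s) s y) (D := s * (y' - y)) (fun j => by
        have := P.s0
        simp only [ee]
        rw [abs_le]
        rcases sg_cases j with e | e <;> rw [e] <;> constructor <;> nlinarith) x
    have h3 := mul_le_mul_of_nonneg_left h1 P.η0.le
    have h5 : η * (N * (s * (y' - y))) = θ * s * (y' - y) := by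
      rw [← mul_assoc, P.ηN]; ring
    have h6 : s * η ≤ θ * s := by
      rw [mul_comm]
      exact mul_le_mul_of_nonneg_right P.η_le P.s0.le
    have h7 : θ * s ≤ 1 / 100 := by
      have := P.θ1
      have := P.s_le
      have := P.θ0
      have := P.s0
      nlinarith
    have h8 : 0 < y' - y := sub_pos.2 hlt
    simp only [low]
    nlinarith
  rcases lt_trichotomy y y' with h1 | h1 | h1
  · exact absurd e (key y y' h1).ne'
  · exact h1
  · exact absurd e (key y' y h1).ne

/-- The height of the large cell can be chosen so that its area does not change. -/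
theorem exists_height : ∃ c : ℝ, |c - 1 / 2| ≤ 2 * (θ * s) ∧
    mm.real {p | low N η A (2 * s) (θ * s) s p ≤ p.2 - c} =
      mm.real {p | low N η A (2 * s) 0 0 p ≤ p.2 - 1 / 2} := by
  have hm : Measurable fun p : ℝ × ℝ => low N η A (2 * s) (θ * s) s p - p.2 :=
    continuous_low.measurable.sub measurable_snd
  set ν : Measure ℝ := mm.map fun p : ℝ × ℝ => low N η A (2 * s) (θ * s) s p - p.2 with hν
  have : IsFiniteMeasure ν := by rw [hν]; infer_instance
  have : NullSingletonClass ν := by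
    refine ⟨fun t => ?_⟩
    rw [hν, Measure.map_apply hm (measurableSet_singleton t)]
    refine m_null (hm (measurableSet_singleton t)) fun x y y' h1 h2 => ?_
    exact P.lv_inj (Eq.trans h1 (Eq.symm h2))
  have hval : ∀ t, ν.real (Iic t) =
      mm.real {p | low N η A (2 * s) (θ * s) s p ≤ p.2 - (-t)} := by
    intro t
    rw [Measure.real, hν, Measure.map_apply hm measurableSet_Iic, Measure.real]
    congr 2
    ext p
    simp only [mem_preimage, mem_Iic, mem_ofPred_eq]
    constructor <;> intro h <;> linarith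
  have h0 : 0 < θ * s := mul_pos P.θ0 P.s0
  have hle : -(1 / 2) - 2 * (θ * s) ≤ -(1 / 2) + 2 * (θ * s) := by linarith
  have hlow : ν.real (Iic (-(1 / 2) - 2 * (θ * s))) ≤
      mm.real {p | low N η A (2 * s) 0 0 p ≤ p.2 - 1 / 2} := by
    rw [hval]
    refine m_mono fun p hp h => ?_
    have := abs_le.1 (P.lv_near hp)
    simp only [mem_ofPred_eq] at h ⊢
    linarith [this.1]
  have hhigh : mm.real {p | low N η A (2 * s) 0 0 p ≤ p.2 - 1 / 2} ≤
      ν.real (Iic (-(1 / 2) + 2 * (θ * s))) := by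
    rw [hval]
    refine m_mono fun p hp h => ?_
    have := abs_le.1 (P.lv_near hp)
    simp only [mem_ofPred_eq] at h ⊢
    linarith [this.2]
  obtain ⟨t, ht, ht2⟩ := intermediate_value_Icc hle
    (P074.continuous_real_Iic ν).continuousOn ⟨hlow, hhigh⟩
  refine ⟨-t, abs_le.2 ⟨by linarith [ht.2], by linarith [ht.1]⟩, ?_⟩
  rw [← hval]
  exact ht2

end Par

end Vale.Agent.N074
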