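import Vale.Agent.P074.Defs

open MeasureTheory Set
open scoped NNReal

namespace Vale.Agent.N074

open Vale.Agent.P074

/-- The unit cube `[0, 1]^d`. -/
def cube (d : ℕ) : Set (E d) := {x | ∀ i, x i ∈ Icc (0 : ℝ) 1}

/-- `ρ` is a probability measure, and for every compact `Y` with interior points: every
probability `μ` on `Y` has an optimal map from `ρ`, unique up to `ρ`-null sets, and for every
`p ≥ 1` the number `a` is the largest exponent `α ≥ 0` such that
`‖T_μ - T_ν‖_{L²(ρ)} ≤ C W_p(μ, ν)^α` holds on `P(Y)` with some finite `C`. -/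
def SharpExponent {d : ℕ} (ρ : Measure (E d)) (a : ℝ) : Prop :=
  IsProbabilityMeasure ρ ∧ ∀ Y : Set (E d), IsCompact Y → (interior Y).Nonempty →
    (∀ μ : Measure (E d), IsProbabilityMeasure μ → μ (Y)ᶜ = 0 →
      ∃ T : E d → E d, IsOptimalMap ρ μ T ∧ ∀ S : E d → E d, IsOptimalMap ρ μ S → S =ᵐ[ρ] T) ∧
    ∀ p : ℝ, 1 ≤ p →
      IsGreatest {α : ℝ | 0 ≤ α ∧ ∃ C : ℝ≥0, StabilityEstimate ρ Y p α C} a

end Vale.Agent.N074
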