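import Vale.Agent.N074.Scale

/-!
# P074: all scales at once
-/

open MeasureTheory Set
open scoped ENNReal NNReal

namespace Vale.Agent.N074

/-- Number of faces at the scale `k`. -/
noncomputable def nk (θ : ℝ) (k : ℕ) : ℕ := 2 * (⌈2 / θ⌉₊ + 2 ^ (k ^ 2))

/-- Width of the slab of the scale `k`. -/
noncomputable def lk (k : ℕ) : ℝ := (1 / 2) ^ k / 8

/-- Half of the width of the strips at the scale `k`. -/
noncomputable def sk (θ : ℝ) (k : ℕ) : ℝ := lk k / (2 * (nk θ k + 1))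

theorem lk_pos (k : ℕ) : 0 < lk k := by unfold lk; positivity

theorem lk_le (k : ℕ) : lk k ≤ 1 / 8 := by
  unfold lk
  have : ((1 : ℝ) / 2) ^ k ≤ 1 := pow_le_one₀ (by norm_num) (by norm_num)
  linarith

theorem lk_lt {k k' : ℕ} (h : k < k') : 2 * lk k' ≤ lk k := by
  unfold lk
  have : ((1 : ℝ) / 2) ^ k' ≤ (1 / 2) ^ (k + 1) :=
    pow_le_pow_of_le_one (by norm_num) (by norm_num) h
  rw [pow_succ] at this
  linarith

theorem nk_ge (θ : ℝ) (k : ℕ) : (2 : ℝ) ^ (k ^ 2) ≤ nk θ k := by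
  unfold nk
  push_cast
  have : (0 : ℝ) ≤ ⌈2 / θ⌉₊ := Nat.cast_nonneg _
  have : (0 : ℝ) ≤ 2 ^ (k ^ 2) := by positivity
  linarith

theorem nk_pos (θ : ℝ) (k : ℕ) : (1 : ℝ) ≤ nk θ k :=
  le_trans (one_le_pow₀ (by norm_num)) (nk_ge θ k)

theorem sk_mul (θ : ℝ) (k : ℕ) : ((nk θ k : ℝ) + 1) * (2 * sk θ k) = lk k := by
  unfold sk
  have := nk_pos θ k
  field_simp

theorem par_k {θ : ℝ} (h0 : 0 < θ) (h1 : θ ≤ 1 / 100) (k : ℕ) :
    Par θ (sk θ k) (θ / nk θ k) (1 / 3 + lk k) (nk θ k) := by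
  have hn := nk_pos θ k
  have hl := lk_pos k
  refine ⟨h0, h1, by unfold sk; positivity, by positivity, by field_simp, by linarith, ?_,
    even_two_mul _, ?_⟩
  · rw [sk_mul]
    linarith [lk_le k]
  · have h2 : 2 / θ ≤ ⌈2 / θ⌉₊ := Nat.le_ceil _
    rw [div_le_iff₀ h0] at h2
    unfold nk
    push_cast
    have : (0 : ℝ) ≤ θ * 2 ^ (k ^ 2) := by positivity
    nlinarith

theorem exists_scale {θ : ℝ} (h0 : 0 < θ) (h1 : θ ≤ 1 / 100) {α : ℝ} (hα : 1 / 4 < α) (D : ℝ) :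
    ∃ k, D * (sk θ k * (θ / nk θ k)) ^ α < √(sk θ k) := by
  set β := 4 * α - 1 with hβ
  have hβ0 : 0 < β := by linarith
  obtain ⟨k, hk⟩ := exists_nat_ge (max (2 / β) (16 * D ^ 2))
  have hk1 : 2 ≤ β * k := by
    have := (le_max_left _ _).trans hk
    rw [div_le_iff₀ hβ0] at this
    linarith
  have hk2 : 16 * D ^ 2 ≤ k := (le_max_right _ _).trans hk
  refine ⟨k, ?_⟩
  have hn := nk_pos θ k
  have hl := lk_pos k
  have hl' := lk_le k
  set n : ℝ := nk θ k + 1 with hn'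
  have hn0 : 0 < n := by linarith
  have hs : sk θ k = lk k / (2 * n) := rfl
  have hs0 : 0 < sk θ k := by rw [hs]; positivity
  have hx0 : 0 < sk θ k * (θ / nk θ k) := by positivity
  have hx : sk θ k * (θ / nk θ k) ≤ n ^ (-2 : ℝ) := by
    have e1 : sk θ k ≤ 1 / n := by
      rw [hs, div_le_div_iff₀ (by positivity) hn0]
      nlinarith
    have e2 : θ / nk θ k ≤ 1 / n := by
      rw [div_le_div_iff₀ (by linarith) hn0]
      nlinarith
    calc _ ≤ 1 / n * (1 / n) := mul_le_mul e1 e2 (by positivity) (by positivity)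
      _ = _ := by
        rw [Real.rpow_neg hn0.le, Real.rpow_two]
        field_simp
  refine Real.lt_sqrt_of_sq_lt ?_
  have e3 : ((sk θ k * (θ / nk θ k)) ^ α) ^ 2 ≤ n⁻¹ * (n ^ β)⁻¹ := by
    have e4 : (sk θ k * (θ / nk θ k)) ^ α ≤ (n ^ (-2 : ℝ)) ^ α :=
      Real.rpow_le_rpow hx0.le hx (by linarith)
    calc _ ≤ ((n ^ (-2 : ℝ)) ^ α) ^ 2 := pow_le_pow_left₀ (by positivity) e4 2
      _ = n ^ (-1 + -β) := by
        rw [← Real.rpow_mul hn0.le, ← Real.rpow_natCast, ← Real.rpow_mul hn0.le]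
        congr 1
        rw [hβ]
        push_cast
        ring
      _ = _ := by rw [Real.rpow_add hn0, Real.rpow_neg_one, Real.rpow_neg hn0.le]
  have e5 : (2 : ℝ) ^ k * 2 ^ k ≤ n ^ β := by
    have e6 : ((2 : ℝ) ^ (k ^ 2)) ^ β ≤ n ^ β :=
      Real.rpow_le_rpow (by positivity) ((nk_ge θ k).trans (by linarith)) hβ0.le
    refine le_trans ?_ e6
    rw [← pow_add, ← Real.rpow_natCast, ← Real.rpow_natCast, ← Real.rpow_mul (by norm_num)]
    refine Real.rpow_le_rpow_of_exponent_le (by norm_num) ?_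
    push_cast
    have : (0 : ℝ) ≤ k := Nat.cast_nonneg k
    nlinarith
  have e7 : (k : ℝ) < 2 ^ k := by exact_mod_cast Nat.lt_two_pow_self
  have e8 : (0 : ℝ) < 2 ^ k := by positivity
  have e9 : D ^ 2 * (n ^ β)⁻¹ < lk k / 2 := by
    have e10 : lk k / 2 = (16 * 2 ^ k)⁻¹ := by
      unfold lk
      rw [one_div, inv_pow]
      field_simp
      norm_num
    have e11 : 0 < n ^ β := Real.rpow_pos_of_pos hn0 _
    rw [e10, ← div_eq_mul_inv, div_lt_iff₀ e11, ← div_eq_inv_mul, lt_div_iff₀ (by positivity)]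
    nlinarith
  calc (D * (sk θ k * (θ / nk θ k)) ^ α) ^ 2
      = D ^ 2 * ((sk θ k * (θ / nk θ k)) ^ α) ^ 2 := mul_pow _ _ _
    _ ≤ D ^ 2 * (n⁻¹ * (n ^ β)⁻¹) := mul_le_mul_of_nonneg_left e3 (sq_nonneg _)
    _ = n⁻¹ * (D ^ 2 * (n ^ β)⁻¹) := by ring
    _ < n⁻¹ * (lk k / 2) := mul_lt_mul_of_pos_left e9 (inv_pos.2 hn0)
    _ = sk θ k := by rw [hs]; field_simp

/-- The property of the set of holes which is used: at suitable scales the tilted and the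
vertical cells have the same masses. -/
def Good (θ τ : ℝ) (U : Set (ℝ × ℝ)) : Prop :=
  ∀ α : ℝ, 1 / 4 < α → ∀ D : ℝ, ∃ (s η A c : ℝ) (N : ℕ), Par θ s η A N ∧
    D * (s * η) ^ α < √s ∧ |c - 1 / 2| ≤ 2 * (θ * s) ∧
    ∀ j, bal U τ {p | iu N η A s p ≤ j} = bal U τ {p | iv N θ η A s c p ≤ j}

theorem exists_holes {θ τ : ℝ} (h0 : 0 < θ) (h1 : θ ≤ 1 / 100) (hτ : 6000 * θ ≤ τ) :
    ∃ U : Set (ℝ × ℝ), IsOpen U ∧ (∀ p ∈ U, 1 / 3 < p.1 ∧ 1 / 16 < p.2 ∧ p.2 < 7 / 16) ∧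
      mm.real U ≤ 640 * θ / τ ∧
      (∀ x y y' z, (x, y) ∈ U → (x, y') ∈ U → y ≤ z → z ≤ y' → (x, z) ∈ U) ∧ Good θ τ U := by
  have P := par_k h0 h1
  choose c hc hc2 using fun k => (P k).exists_height
  set H : ℕ → ℕ → Set (ℝ × ℝ) := fun k l => hole (cc (1 / 3 + lk k) (sk θ k) l) (sk θ k) τ
    (gap (nk θ k) θ (θ / nk θ k) (1 / 3 + lk k) (sk θ k) (c k) l) ((-1) ^ l) with hH
  have hsub : ∀ k, ∀ l < nk θ k, ∀ p ∈ H k l,
      |p.1 - cc (1 / 3 + lk k) (sk θ k) l| < sk θ k / 16 ∧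
      ((1 / 16 < p.2 ∧ p.2 < 1 / 16 + 320 * θ / τ) ∨
        (3 / 8 < p.2 ∧ p.2 < 3 / 8 + 320 * θ / τ)) :=
    fun k l hl p hp => (P k).hole_sub hτ ((P k).gap_le (hc k) hl) hp
  have hslab : ∀ k, ∀ l < nk θ k, ∀ p ∈ H k l,
      1 / 3 + lk k ≤ p.1 ∧ p.1 < 1 / 3 + 2 * lk k := by
    intro k l hl p hp
    have e1 := abs_lt.1 (hsub k l hl p hp).1
    have e2 := (P k).cc_ge l
    have e3 := (P k).cc_le hl
    rw [sk_mul] at e3
    have e4 := (P k).s0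
    constructor <;> linarith [e1.1, e1.2]
  have huniq : ∀ k k' (x : ℝ), 1 / 3 + lk k ≤ x → x < 1 / 3 + 2 * lk k →
      1 / 3 + lk k' ≤ x → x < 1 / 3 + 2 * lk k' → k = k' := by
    intro k k' x a b a' b'
    rcases lt_trichotomy k k' with h | h | h
    · linarith [lk_lt h]
    · exact h
    · linarith [lk_lt h]
  have hw : 320 * θ / τ ≤ 1 / 16 := by
    rw [div_le_iff₀ (by linarith)]
    linarith
  have hw0 : 0 ≤ 320 * θ / τ := div_nonneg (by linarith) (by linarith)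
  set U := ⋃ k, ⋃ l, ⋃ (_ : l < nk θ k), H k l with hU
  have hmem : ∀ p, p ∈ U ↔ ∃ k, ∃ l < nk θ k, p ∈ H k l := fun p => by
    simp only [hU, mem_iUnion, exists_prop]
  have hU1 : ∀ p ∈ U, 1 / 3 < p.1 ∧ 1 / 16 < p.2 ∧ p.2 < 7 / 16 := by
    intro p hp
    obtain ⟨k, l, hl, hp⟩ := (hmem p).1 hp
    refine ⟨by linarith [(hslab k l hl p hp).1, lk_pos k], ?_⟩
    rcases (hsub k l hl p hp).2 with e | e <;> constructor <;> linarith [e.1, e.2]
  refine ⟨U, isOpen_iUnion fun k => isOpen_iUnion fun l => isOpen_iUnion fun _ =>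
    isOpen_Ioo.prod isOpen_Ioo, hU1, ?_, ?_, ?_⟩
  · have e1 : mm.real U ≤ mm.real (Icc 0 1 ×ˢ Icc (1 / 16) (1 / 16 + 320 * θ / τ) ∪
        Icc 0 1 ×ˢ Icc (3 / 8) (3 / 8 + 320 * θ / τ)) := by
      refine m_mono fun p hp hpU => ?_
      obtain ⟨k, l, hl, hpH⟩ := (hmem p).1 hpU
      rcases (hsub k l hl p hpH).2 with e | e
      · exact Or.inl ⟨hp.1, e.1.le, e.2.le⟩
      · exact Or.inr ⟨hp.1, e.1.le, e.2.le⟩
    have e2 := m_box_le (a := 0) (b := 1) (c := 1 / 16) (e := 1 / 16 + 320 * θ / τ) zero_le_one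
      (by linarith)
    have e3 := m_box_le (a := 0) (b := 1) (c := 3 / 8) (e := 3 / 8 + 320 * θ / τ) zero_le_one
      (by linarith)
    have e4 : 640 * θ / τ = 320 * θ / τ + 320 * θ / τ := by ring
    linarith [e1.trans (measureReal_union_le _ _)]
  · intro x y y' z hy hy' h2 h3
    obtain ⟨k, l, hl, hp⟩ := (hmem _).1 hy
    obtain ⟨k', l', hl', hp'⟩ := (hmem _).1 hy'
    have e1 := hslab k l hl _ hp
    have e2 := hslab k' l' hl' _ hp'
    obtain rfl := huniq k k' x e1.1 e1.2 e2.1 e2.2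
    have e3 := abs_lt.1 (hsub k l hl _ hp).1
    have e4 := abs_lt.1 (hsub k l' hl' _ hp').1
    have e5 := (P k).s0
    have e6 : l = l' := by
      rcases lt_trichotomy l l' with h | h | h
      · linarith [(P k).cc_lt h, e3.2, e4.1]
      · exact h
      · linarith [(P k).cc_lt h, e3.1, e4.2]
    subst e6
    exact (hmem _).2 ⟨k, l, hl, hp.1, lt_of_lt_of_le hp.2.1 h2, lt_of_le_of_lt h3 hp'.2.2⟩
  · intro α hα D
    obtain ⟨k, hk⟩ := exists_scale h0 h1 hα D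
    refine ⟨_, _, _, c k, _, P k, hk, hc k, (P k).balance hτ (hc k) (hc2 k)
      (fun p hp => (hU1 p hp).2.2) (fun l hl p hp => (hmem p).2 ⟨k, l, hl, hp⟩) ?_⟩
    intro p hp a b
    obtain ⟨k', l, hl, hpH⟩ := (hmem p).1 hp
    rw [sk_mul] at b
    have e1 := hslab k' l hl p hpH
    obtain rfl := huniq k k' p.1 a (by linarith) e1.1 e1.2
    exact ⟨l, hl, hpH⟩

end Vale.Agent.N074
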