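import Vale.Agent.N074.Holes

/-!
# P074: no exponent above one quarter for the perforated sources
-/

open MeasureTheory Set
open scoped ENNReal NNReal RealInnerProductSpace

namespace Vale.Agent.N074

open Vale.Agent.P074

variable {d : ℕ}

/-- A map to finitely many sites which maximises affine functions is optimal. -/
theorem optimal_of_argmax (ρ : Measure (E d)) [IsFiniteMeasure ρ] {n : ℕ} (y : ℕ → E d)
    (hy : ∀ i ≤ n, ∀ j ≤ n, y i = y j → i = j) (w : ℕ → ℝ) {I : E d → ℕ} (hI : Measurable I)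
    (hIn : ∀ x, I x ≤ n)
    (h : ∀ᵐ x ∂ρ, ∀ i ≤ n, ⟪x, y i⟫ - w i ≤ ⟪x, y (I x)⟫ - w (I x)) :
    IsOptimalMap ρ (ρ.map fun x => y (I x)) fun x => y (I x) := by
  classical
  set β : ℕ → ℝ := fun i => ‖y i‖ ^ 2 - 2 * w i with hβ
  set b : E d → ℝ := fun v => ∑ i ∈ Finset.range (n + 1), if v = y i then β i else 0 with hb
  have hbi : ∀ i ≤ n, b (y i) = β i := by
    intro i hi
    simp only [hb]
    rw [Finset.sum_eq_single i, if_pos rfl]
    · intro j hj hji
      rw [if_neg]
      intro e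
      exact hji (hy i hi j (by have := Finset.mem_range.1 hj; omega) e).symm
    · intro hi'
      exact absurd (Finset.mem_range.2 (by omega)) hi'
  set a : E d → ℝ := fun x => ⨅ i : Fin (n + 1), (‖x - y i‖ ^ 2 - β i) with ha
  have hle : ∀ x, ∀ i ≤ n, a x ≤ ‖x - y i‖ ^ 2 - β i := fun x i hi =>
    ciInf_le (Finite.bddBelow_range fun i : Fin (n + 1) => ‖x - y i‖ ^ 2 - β i)
      (⟨i, by omega⟩ : Fin (n + 1))
  have hβb : ∀ i ≤ n, |β i| ≤ ∑ j ∈ Finset.range (n + 1), |β j| := fun i hi =>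
    Finset.single_le_sum (f := fun j => |β j|) (fun j _ => abs_nonneg _)
      (Finset.mem_range.2 (by omega))
  refine isOptimalMap_of_dual ρ _ ((measurable_from_top (f := y)).comp hI) (y '' Iic n)
    ((finite_Iic n).image y).measurableSet (fun x => ⟨I x, hIn x, rfl⟩) a b
    (Measurable.iInf fun i => by fun_prop)
    (Finset.measurable_sum _ fun i _ =>
      Measurable.ite (measurableSet_singleton (y i)) measurable_const measurable_const)
    (∑ j ∈ Finset.range (n + 1), |β j|) (∑ j ∈ Finset.range (n + 1), |β j|) ?_ ?_ ?_ ?_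
  · refine ae_of_all _ fun x => le_ciInf fun i => ?_
    have := (abs_le.1 (hβb i (by omega))).2
    nlinarith [sq_nonneg ‖x - y i‖]
  · rintro _ ⟨i, hi, rfl⟩
    rw [hbi i hi]
    exact (abs_le.1 (hβb i hi)).1
  · rintro x _ ⟨i, hi, rfl⟩
    rw [hbi i hi]
    linarith [hle x i hi]
  · filter_upwards [h] with x hx
    rw [hbi _ (hIn x)]
    have h1 := hle x _ (hIn x)
    have h2 : ‖x - y (I x)‖ ^ 2 - β (I x) ≤ a x := le_ciInf fun i => by
      have := hx i (by omega)
      simp only [hβ, norm_sub_sq_real]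
      linarith
    linarith

/-- Two maps with cells of equal masses and close sites have close laws. -/
theorem wass_le_of_cells (ρ : Measure (E d)) [IsProbabilityMeasure ρ] (y z : ℕ → E d)
    {I J : E d → ℕ} (hI : Measurable I) (hJ : Measurable J) (h : ρ.map I = ρ.map J) {ζ p : ℝ}
    (hp : 0 < p) (hyz : ∀ i, ‖y i - z i‖ ≤ ζ) :
    Wass p (ρ.map fun x => y (I x)) (ρ.map fun x => z (J x)) ≤ ENNReal.ofReal ζ := by
  have hy : Measurable y := measurable_from_top
  have hz : Measurable z := measurable_from_top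
  have : IsProbabilityMeasure (ρ.map I) := Measure.isProbabilityMeasure_map hI.aemeasurable
  have e : ENNReal.ofReal ζ = (ENNReal.ofReal ζ ^ p) ^ (1 / p) := by
    rw [← ENNReal.rpow_mul, mul_one_div_cancel hp.ne', ENNReal.rpow_one]
  rw [e]
  unfold Wass
  refine ENNReal.rpow_le_rpow ?_ (by positivity)
  refine iInf_le_of_le ((ρ.map I).map fun i => (y i, z i))
    (iInf_le_of_le ?_ (iInf_le_of_le ?_ ?_))
  · rw [Measure.map_map measurable_fst measurable_from_top, Measure.map_map (by fun_prop) hI]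
    rfl
  · rw [Measure.map_map measurable_snd measurable_from_top, h, Measure.map_map (by fun_prop) hJ]
    rfl
  · rw [lintegral_map (by fun_prop) measurable_from_top]
    calc _ ≤ ∫⁻ _i, ENNReal.ofReal ζ ^ p ∂(ρ.map I) := by
          refine lintegral_mono fun i => ENNReal.rpow_le_rpow ?_ hp.le
          change ‖y i - z i‖ₑ ≤ _
          rw [← ofReal_norm]
          exact ENNReal.ofReal_le_ofReal (hyz i)
      _ = _ := by rw [lintegral_const, measure_univ, mul_one]

/-- The two coordinates which are used. -/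
def proj (i0 i1 : Fin d) (x : E d) : ℝ × ℝ := (x i0, x i1)

theorem continuous_proj (i0 i1 : Fin d) : Continuous (proj i0 i1) := by
  unfold proj
  fun_prop

/-- The sites. -/
noncomputable def site (i0 i1 : Fin d) (q : E d) (r : ℝ) (N : ℕ) (η ζ : ℝ) (i : ℕ) : E d :=
  q + EuclideanSpace.single i0 (r * sx N η i) + EuclideanSpace.single i1 (r * sy N ζ i)

variable {i0 i1 : Fin d} {q : E d} {r : ℝ} {N : ℕ} {η ζ : ℝ}

theorem site_apply (i : ℕ) (k : Fin d) : site i0 i1 q r N η ζ i k =
    q k + (if k = i0 then r * sx N η i else 0) + (if k = i1 then r * sy N ζ i else 0) := by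
  simp [site, PiLp.single_apply]

theorem inner_site (x : E d) (i : ℕ) : ⟪x, site i0 i1 q r N η ζ i⟫ =
    ⟪x, q⟫ + r * (sx N η i * x i0 + sy N ζ i * x i1) := by
  simp only [site, inner_add_right, EuclideanSpace.inner_single_right]
  simp only [conj_trivial]
  ring

theorem site_inj (h01 : i0 ≠ i1) (hr : 0 < r) (hη : 0 < η) (hζ : |ζ| < 1) :
    ∀ i ≤ N + 1, ∀ j ≤ N + 1, site i0 i1 q r N η ζ i = site i0 i1 q r N η ζ j → i = j := by
  intro i _ j _ e
  have e0 := congrArg (fun v : E d => v i0) e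
  have e1 := congrArg (fun v : E d => v i1) e
  simp only [site_apply, if_true, if_neg h01, if_neg h01.symm, add_zero, add_right_inj,
    mul_right_inj' hr.ne'] at e0 e1
  have hz := abs_lt.1 hζ
  unfold sx at e0
  unfold sy at e1
  by_cases hi : i = N + 1 <;> by_cases hj : j = N + 1
  · rw [hi, hj]
  · rw [if_pos hi, if_neg hj] at e1
    rcases sg_cases j with e | e <;> rw [e] at e1 <;> linarith [hz.1, hz.2]
  · rw [if_neg hi, if_pos hj] at e1
    rcases sg_cases i with e | e <;> rw [e] at e1 <;> linarith [hz.1, hz.2]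
  · rw [if_neg hi, if_neg hj, mul_left_inj' hη.ne'] at e0
    exact_mod_cast e0

theorem site_near (h01 : i0 ≠ i1) (hr : 0 < r) (hη : 0 < η) (hηN : η * N ≤ 1) (hζ : |ζ| < 1)
    {i : ℕ} (hi : i ≤ N + 1) (k : Fin d) : |site i0 i1 q r N η ζ i k - q k| ≤ r := by
  have h1 : |sx N η i| ≤ 1 := by
    unfold sx
    split_ifs with h
    · simp
    · have : (i : ℝ) ≤ N := by exact_mod_cast (by omega : i ≤ N)
      rw [abs_of_nonneg (by positivity)]
      nlinarith
  have h2 : |sy N ζ i| ≤ 1 := by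
    unfold sy
    split_ifs with h
    · simp
    · rw [abs_mul, abs_pow, abs_neg, abs_one, one_pow, one_mul]
      exact hζ.le
  rw [site_apply]
  by_cases e0 : k = i0
  · rw [if_pos e0, if_neg (by rw [e0]; exact h01), add_zero, add_sub_cancel_left, abs_mul,
      abs_of_pos hr]
    nlinarith
  · rw [if_neg e0, add_zero, add_sub_cancel_left]
    split_ifs
    · rw [abs_mul, abs_of_pos hr]
      nlinarith
    · simp [hr.le]

theorem site_dist (hr : 0 < r) (hζ : 0 ≤ ζ) (i : ℕ) :
    ‖site i0 i1 q r N η (0 * η / 2) i - site i0 i1 q r N η ζ i‖ ≤ r * ζ := by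
  have e : site i0 i1 q r N η (0 * η / 2) i - site i0 i1 q r N η ζ i =
      EuclideanSpace.single i1 (r * sy N (0 * η / 2) i - r * sy N ζ i) := by
    ext k
    simp only [PiLp.sub_apply, site_apply, PiLp.single_apply]
    split_ifs <;> ring
  rw [e, PiLp.norm_single, Real.norm_eq_abs, ← mul_sub, abs_mul, abs_of_pos hr]
  refine mul_le_mul_of_nonneg_left ?_ hr.le
  unfold sy
  split_ifs
  · simpa using hζ
  · rw [abs_le]
    rcases sg_cases i with e | e <;> rw [e] <;> constructor <;> linarith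

theorem site_far (h01 : i0 ≠ i1) (hr : 0 < r) (hζ : 0 ≤ ζ) (hζ1 : ζ ≤ 1 / 2) {i j : ℕ}
    (h : ¬ (i = N + 1 ↔ j = N + 1)) :
    r / 2 ≤ ‖site i0 i1 q r N η (0 * η / 2) i - site i0 i1 q r N η ζ j‖ := by
  refine le_trans ?_ (PiLp.norm_apply_le _ i1)
  simp only [PiLp.sub_apply, site_apply, if_true, if_neg h01.symm, add_zero,
    add_sub_add_left_eq_sub, Real.norm_eq_abs]
  rw [← mul_sub, abs_mul, abs_of_pos hr]
  have : 1 / 2 ≤ |sy N (0 * η / 2) i - sy N ζ j| := by
    unfold sy
    by_cases hi : i = N + 1 <;> by_cases hj : j = N + 1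
    · exact absurd ⟨fun _ => hj, fun _ => hi⟩ h
    · rw [if_pos hi, if_neg hj, le_abs]
      rcases sg_cases j with e | e <;> rw [e] <;> left <;> linarith
    · rw [if_neg hi, if_pos hj, le_abs]
      right
      linarith
    · exact absurd ⟨fun e => absurd e hi, fun e => absurd e hj⟩ h
  nlinarith

theorem no_exponent (h01 : i0 ≠ i1) {θ τ z : ℝ} {U : Set (ℝ × ℝ)} (hG : Good θ τ U)
    (hU : ∀ p ∈ U, p.2 < 7 / 16) (ρ : Measure (E d)) [IsProbabilityMeasure ρ]
    (hSq : ∀ᵐ x ∂ρ, proj i0 i1 x ∈ Sq) (hz : 1 ≤ z)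
    (hρ : ∀ S, MeasurableSet S → ρ.real (proj i0 i1 ⁻¹' S) = z * bal U τ S)
    {Y : Set (E d)} (hY : MeasurableSet Y) (hYi : (interior Y).Nonempty) {p α : ℝ} (hp : 0 < p)
    (hα : 1 / 4 < α) (C : ℝ≥0) : ¬ StabilityEstimate ρ Y p α C := by
  intro hS
  obtain ⟨q, r, hr, hq⟩ := exists_cube hYi
  obtain ⟨s, η, A, c, N, P, hD, hc, hbal⟩ := hG α hα (C * (r / 2) ^ α * (8 / (r * θ)))
  have hs0 := P.s0
  have hη0 := P.η0
  have hθ0 := P.θ0
  have hθ1 := P.θ1
  have hζ0 : 0 < s * η / 2 := by positivity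
  have hζ1 : s * η / 2 ≤ 1 / 2 := by nlinarith [P.s_le, P.η_le]
  have hπ := (continuous_proj i0 i1).measurable
  set I : E d → ℕ := fun x => iu N η A s (proj i0 i1 x) with hI
  set J : E d → ℕ := fun x => iv N θ η A s c (proj i0 i1 x) with hJ
  have hIm : Measurable I := measurable_cellIx.comp hπ
  have hJm : Measurable J := measurable_cellIx.comp hπ
  set y := site i0 i1 q r N η (0 * η / 2) with hy
  set y' := site i0 i1 q r N η (s * η / 2) with hy'
  have hηN : η * N ≤ 1 := by linarith [P.ηN]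
  have hz0 : |0 * η / 2| < 1 := by simp
  have hz1 : |s * η / 2| < 1 := by rw [abs_of_pos hζ0]; linarith
  have hT : IsOptimalMap ρ (ρ.map fun x => y (I x)) fun x => y (I x) := by
    refine optimal_of_argmax ρ y (site_inj h01 hr hη0 hz0)
      (fun i => r * wt N η A (2 * s) 0 0 (1 / 2) i) hIm (fun x => cellIx_le _) ?_
    filter_upwards [hSq] with x hx i hi
    have := mul_le_mul_of_nonneg_left (argmax (N := N) (A := A) (κ := 0) (c := 1 / 2) hη0.le
      le_rfl (by linarith : 2 * (0 : ℝ) ≤ 2 * s) hx hi) hr.le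
    simp only [hy, inner_site, hI]
    simp only [proj] at this ⊢
    linarith
  have hT' : IsOptimalMap ρ (ρ.map fun x => y' (J x)) fun x => y' (J x) := by
    refine optimal_of_argmax ρ y' (site_inj h01 hr hη0 hz1)
      (fun i => r * wt N η A (2 * s) (θ * s) s c i) hJm (fun x => cellIx_le _) ?_
    filter_upwards [hSq] with x hx i hi
    have := mul_le_mul_of_nonneg_left (argmax (N := N) (A := A) (κ := θ * s) (c := c) hη0.le
      hs0.le le_rfl hx hi) hr.le
    simp only [hy', inner_site, hJ]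
    simp only [proj] at this ⊢
    linarith
  have hIJ : ρ.map I = ρ.map J := by
    refine Measure.ext_of_Iic _ _ fun j => ?_
    rw [Measure.map_apply hIm measurableSet_Iic, Measure.map_apply hJm measurableSet_Iic,
      ← ENNReal.toReal_eq_toReal_iff' (measure_ne_top _ _) (measure_ne_top _ _)]
    have e1 := hρ _ (meas_le (measurable_cellIx (N := N) (η := η) (A := A) (h := 2 * s) (κ := 0)
      (s := 0) (c := 1 / 2)) j)
    have e2 := hρ _ (meas_le (measurable_cellIx (N := N) (η := η) (A := A) (h := 2 * s)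
      (κ := θ * s) (s := s) (c := c)) j)
    rw [hbal j, ← e2] at e1
    exact e1
  have hW := wass_le_of_cells ρ y y' hIm hJm hIJ hp (site_dist hr hζ0.le)
  have hsupp : ∀ (v : ℕ → E d) (K : E d → ℕ), Measurable K → (∀ x, v (K x) ∈ Y) →
      (ρ.map fun x => v (K x)) Yᶜ = 0 := by
    intro v K hK hv
    have hm : Measurable fun x => v (K x) := (measurable_from_top (f := v)).comp hK
    rw [Measure.map_apply hm hY.compl]
    have : (fun x => v (K x)) ⁻¹' Yᶜ = ∅ := eq_empty_of_forall_notMem fun x hx => hx (hv x)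
    rw [this, measure_empty]
  have h1 := hS _ _ (Measure.isProbabilityMeasure_map hT.1.aemeasurable)
    (Measure.isProbabilityMeasure_map hT'.1.aemeasurable)
    (hsupp y I hIm fun x => hq _ (site_near h01 hr hη0 hηN hz0 (cellIx_le _)))
    (hsupp y' J hJm fun x => hq _ (site_near h01 hr hη0 hηN hz1 (cellIx_le _))) _ _ hT hT'
  obtain ⟨B, hBm, hB1, hB2, hB3⟩ := P.effect hc
  have hBρ : θ ^ 2 * s / 16 ≤ ρ.real (proj i0 i1 ⁻¹' B) := by
    rw [hρ B hBm]
    have : B ∩ U = ∅ := eq_empty_of_forall_notMem fun p hp => by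
      linarith [hB1 p hp.1, hU p hp.2]
    unfold bal
    rw [this, measureReal_empty, mul_zero, sub_zero]
    nlinarith [measureReal_nonneg (μ := mm) (s := B)]
  have h2 : ENNReal.ofReal (r / 2 * (θ / 4 * √s)) ≤
      eLpNorm (fun x => y (I x) - y' (J x)) 2 ρ := by
    have e1 : eLpNorm ((proj i0 i1 ⁻¹' B).indicator fun _ => r / 2) 2 ρ ≤
        eLpNorm (fun x => y (I x) - y' (J x)) 2 ρ := by
      refine eLpNorm_mono fun x => ?_
      by_cases hx : x ∈ proj i0 i1 ⁻¹' B
      · rw [indicator_of_mem hx, Real.norm_of_nonneg (by positivity)]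
        exact site_far h01 hr hζ0.le hζ1 (hB3 _ hx)
      · rw [indicator_of_notMem hx, norm_zero]
        exact norm_nonneg _
    refine le_trans ?_ e1
    rw [eLpNorm_indicator_const (hπ hBm) (by norm_num) (by norm_num),
      ENNReal.ofReal_mul (by positivity), ← ofReal_norm, Real.norm_of_nonneg (by positivity)]
    refine mul_le_mul' le_rfl ?_
    have e2 : ENNReal.ofReal (θ ^ 2 * s / 16) ≤ ρ (proj i0 i1 ⁻¹' B) :=
      (ENNReal.ofReal_le_iff_le_toReal (measure_ne_top _ _)).2 hBρ
    refine le_trans (le_of_eq ?_) (ENNReal.rpow_le_rpow e2 (by positivity))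
    rw [ENNReal.ofReal_rpow_of_nonneg (by positivity) (by positivity)]
    congr 1
    have e3 : θ ^ 2 * s / 16 = (θ / 4 * √s) ^ 2 := by
      rw [mul_pow, Real.sq_sqrt hs0.le]
      ring
    rw [e3, ENNReal.toReal_ofNat, ← Real.sqrt_eq_rpow, Real.sqrt_sq (by positivity)]
  have h3 : (C : ℝ≥0∞) * Wass p (ρ.map fun x => y (I x)) (ρ.map fun x => y' (J x)) ^ α ≤
      ENNReal.ofReal (C * (r * (s * η / 2)) ^ α) := by
    rw [ENNReal.ofReal_mul C.coe_nonneg, ENNReal.ofReal_coe_nnreal,
      ← ENNReal.ofReal_rpow_of_nonneg (by positivity) (by linarith)]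
    exact mul_le_mul' le_rfl (ENNReal.rpow_le_rpow hW (by linarith))
  have h4 := (ENNReal.ofReal_le_ofReal_iff (by positivity)).1 (h2.trans (h1.trans h3))
  have e4 : (r * (s * η / 2)) ^ α = (r / 2) ^ α * (s * η) ^ α := by
    rw [← Real.mul_rpow (by positivity) (by positivity)]
    congr 1
    ring
  rw [e4] at h4
  have h5 := mul_lt_mul_of_pos_left hD (by positivity : 0 < r * θ / 8)
  have e5 : r * θ / 8 * (C * (r / 2) ^ α * (8 / (r * θ)) * (s * η) ^ α) =
      C * ((r / 2) ^ α * (s * η) ^ α) := by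
    field_simp
  rw [e5] at h5
  linarith

end Vale.Agent.N074
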