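import Vale.Agent.N074.Lift
import Vale.Agent.N074.Defs

/-!
# P074: the sharp exponent one quarter for rough densities and for nonconvex sources
-/

open MeasureTheory Set Metric
open scoped ENNReal NNReal

namespace Vale.Agent.N074

open Vale.Agent.P074

variable {d : ℕ}

theorem isCompact_cube : IsCompact (cube d) := by
  have e : cube d = (WithLp.toLp 2) '' (Set.pi univ fun _ : Fin d => Icc (0 : ℝ) 1) := by
    ext x
    constructor
    · intro hx
      exact ⟨WithLp.ofLp x, fun i _ => hx i, rfl⟩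
    · rintro ⟨v, hv, rfl⟩ i
      exact hv i trivial
  rw [e]
  exact (isCompact_univ_pi fun _ => isCompact_Icc).image (PiLp.continuous_toLp 2 _)

theorem interior_of {K : Set (E d)} (h : ∀ x : E d, (∀ i, x i ∈ Ioo (0 : ℝ) (1 / 3)) → x ∈ K) :
    (interior K).Nonempty := by
  have ho : IsOpen {x : E d | ∀ i, x i ∈ Ioo (0 : ℝ) (1 / 3)} := by
    rw [setOf_forall]
    exact isOpen_iInter_of_finite fun i => isOpen_Ioo.preimage (by fun_prop)
  refine ⟨WithLp.toLp 2 fun _ => 1 / 6, interior_maximal h ho fun i => ?_⟩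
  constructor <;> norm_num

theorem interior_cube : (interior (cube d)).Nonempty :=
  interior_of fun _ hx i => ⟨(hx i).1.le, by linarith [(hx i).2]⟩

theorem volume_cube : volume (cube d) = 1 := by
  have := volume_box (d := d) (fun _ => 0) (fun _ => 1)
  simpa [cube] using this

theorem unif_cube : unif (cube d) = volume.restrict (cube d) := by
  unfold unif ProbabilityTheory.cond
  rw [volume_cube, inv_one, one_smul]

variable {i0 i1 : Fin d}

theorem map_proj (h01 : i0 ≠ i1) : mm = (volume.restrict (cube d)).map (proj i0 i1) := by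
  have hπ := (continuous_proj i0 i1).measurable
  refine Measure.prod_eq fun s t hs ht => ?_
  rw [Measure.map_apply hπ (hs.prod ht), Measure.restrict_apply (hπ (hs.prod ht))]
  set f : Fin d → Set ℝ := fun i =>
    (if i = i0 then s else if i = i1 then t else univ) ∩ Icc 0 1 with hf
  have e : proj i0 i1 ⁻¹' s ×ˢ t ∩ cube d = (@WithLp.ofLp 2 (Fin d → ℝ)) ⁻¹' Set.pi univ f := by
    ext x
    constructor
    · rintro ⟨⟨h0, h1⟩, h⟩ i _
      refine ⟨?_, h i⟩
      split_ifs with e0 e1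
      · rw [e0]; exact h0
      · rw [e1]; exact h1
      · trivial
    · intro h
      have h0 := (h i0 trivial).1
      have h1 := (h i1 trivial).1
      simp only [if_true, if_neg h01.symm] at h0 h1
      exact ⟨⟨h0, h1⟩, fun i => (h i trivial).2⟩
  have hm : MeasurableSet (Set.pi univ f) := MeasurableSet.univ_pi fun i => by
    refine MeasurableSet.inter ?_ measurableSet_Icc
    split_ifs
    exacts [hs, ht, MeasurableSet.univ]
  rw [e, (PiLp.volume_preserving_ofLp (Fin d)).measure_preimage hm.nullMeasurableSet,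
    volume_pi_pi, Finset.prod_eq_mul i0 i1 h01]
  · simp only [hf, if_true, if_neg h01.symm, li]
    rw [Measure.restrict_apply hs, Measure.restrict_apply ht]
  · rintro c _ ⟨h0, h1⟩
    simp [hf, h0, h1]
  · simp
  · simp

theorem vol_proj (h01 : i0 ≠ i1) {S : Set (ℝ × ℝ)} (hS : MeasurableSet S) :
    (volume.restrict (cube d)).real (proj i0 i1 ⁻¹' S) = mm.real S := by
  rw [map_proj h01, Measure.real, Measure.real,
    Measure.map_apply (continuous_proj i0 i1).measurable hS]

theorem wass_mono {μ ν : Measure (E d)} [IsProbabilityMeasure μ] {p q : ℝ} (hq : 0 < q)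
    (hqp : q ≤ p) : Wass q μ ν ≤ Wass p μ ν := by
  have hp : 0 < p := hq.trans_le hqp
  rw [Wass.eq_1 p, one_div, ENNReal.le_rpow_inv_iff hp]
  refine le_iInf fun π => le_iInf fun e1 => le_iInf fun e2 => ?_
  rw [← ENNReal.le_rpow_inv_iff hp, ← one_div]
  have : IsProbabilityMeasure π := ⟨by
    have := measure_univ (μ := μ)
    rwa [← e1, Measure.map_apply measurable_fst MeasurableSet.univ, preimage_univ] at this⟩
  refine le_trans ?_ (eLpNorm'_le_eLpNorm'_of_exponent_le (f := fun z : E d × E d => z.1 - z.2)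
    hq hqp π (by fun_prop))
  exact ENNReal.rpow_le_rpow (iInf_le_of_le π (iInf_le_of_le e1 (iInf_le _ e2))) (by positivity)

theorem wass_self (μ : Measure (E d)) : Wass 1 μ μ = 0 := by
  unfold Wass
  have hm : Measurable fun x : E d => (x, x) := by fun_prop
  rw [div_one, ENNReal.rpow_one, ← nonpos_iff_eq_zero]
  refine iInf_le_of_le (μ.map fun x => (x, x)) (iInf_le_of_le ?_ (iInf_le_of_le ?_ ?_))
  · rw [Measure.map_map measurable_fst hm]
    exact Measure.map_id
  · rw [Measure.map_map measurable_snd hm]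
    exact Measure.map_id
  · rw [lintegral_map (by fun_prop) hm]
    simp

theorem sharp_of (h01 : i0 ≠ i1) {θ τ z : ℝ} {U : Set (ℝ × ℝ)} (hG : Good θ τ U)
    (hU : ∀ p ∈ U, p.2 < 7 / 16) (ρ : Measure (E d)) [hP : IsProbabilityMeasure ρ] (Λ : ℝ≥0)
    (hΛ : ρ ≤ Λ • volume) (hc : ρ (cube d)ᶜ = 0) (hz : 1 ≤ z)
    (hρ : ∀ S, MeasurableSet S → ρ.real (proj i0 i1 ⁻¹' S) = z * bal U τ S) :
    SharpExponent ρ (1 / 4) := by
  refine ⟨hP, fun Y hY hYi => ?_⟩
  obtain ⟨R, hR, hRc⟩ := (isCompact_cube (d := d)).isBounded.exists_pos_norm_le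
  have hρR : ρ (closedBall 0 R)ᶜ = 0 :=
    measure_mono_null (compl_subset_compl.2 fun x hx => mem_closedBall_zero_iff.2 (hRc x hx)) hc
  obtain ⟨C, hC⟩ := H109.stability_w1 d Λ R hY
  have hS := hC ρ hP hΛ hρR
  refine ⟨fun μ hμ hμY => ?_, fun p hp => ⟨⟨by norm_num, C, ?_⟩, ?_⟩⟩
  · obtain ⟨M, hM, hYM⟩ := hY.isBounded.exists_pos_norm_le
    obtain ⟨T, hT⟩ := H109.exists_optimalMap hR.le hM.le
      ((Measure.absolutelyContinuous_of_le hΛ).trans Measure.smul_absolutelyContinuous) hρR hμ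
      (measure_mono_null
        (compl_subset_compl.2 fun x hx => mem_closedBall_zero_iff.2 (hYM x hx)) hμY)
    refine ⟨T, hT, fun S hS' => ?_⟩
    have h := hS μ μ hμ hμ hμY hμY S T hS' hT
    rw [wass_self, ENNReal.zero_rpow_of_pos (by norm_num), mul_zero, nonpos_iff_eq_zero] at h
    filter_upwards [(eLpNorm_eq_zero_iff (hS'.1.sub hT.1).aestronglyMeasurable
      (by norm_num)).1 h] with x hx using sub_eq_zero.1 hx
  · intro μ ν hμ hν hμY hνY T S hT hS'
    exact (hS μ ν hμ hν hμY hνY T S hT hS').trans (mul_le_mul' le_rfl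
      (ENNReal.rpow_le_rpow (wass_mono one_pos hp) (by norm_num)))
  · rintro α ⟨-, C', hC'⟩
    by_contra hα
    refine no_exponent h01 hG hU ρ ?_ hz hρ hY.measurableSet hYi (by linarith) (not_le.1 hα) C' hC'
    have : ∀ᵐ x ∂ρ, x ∈ cube d := hc
    filter_upwards [this] with x hx using ⟨hx i0, hx i1⟩

/-- Rough densities. -/
theorem rough (h01 : i0 ≠ i1) {ε : ℝ} (hε : 0 < ε) : ∃ σ : E d → ℝ, Measurable σ ∧
    (∀ x, |σ x - 1| ≤ ε) ∧
    SharpExponent ((unif (cube d)).withDensity fun x => ENNReal.ofReal (σ x)) (1 / 4) := by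
  set τ := min ε (1 / 2) with hτ
  have hτ0 : 0 < τ := lt_min hε (by norm_num)
  have hτ1 : τ ≤ 1 / 2 := min_le_right _ _
  obtain ⟨U, hUo, hU, hm, -, hG⟩ := exists_holes (θ := τ / 6000) (τ := τ) (by positivity)
    (by linarith) (by linarith)
  have hm' : mm.real U ≤ 1 / 9 := by
    refine hm.trans ?_
    rw [div_le_iff₀ hτ0]
    linarith
  have hm0 : 0 ≤ mm.real U := measureReal_nonneg
  have hπ := (continuous_proj i0 i1).measurable
  have hB : MeasurableSet (proj i0 i1 ⁻¹' U) := hπ hUo.measurableSet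
  have h1 : 0 < 1 - τ * mm.real U := by nlinarith
  set z := (1 - τ * mm.real U)⁻¹ with hz
  have hz1 : z * (1 - τ * mm.real U) = 1 := inv_mul_cancel₀ h1.ne'
  have hz0 : 0 < z := inv_pos.2 h1
  have hz2 : 1 ≤ z := by nlinarith [mul_nonneg hτ0.le hm0]
  have hz3 : z ≤ 1 + τ := by nlinarith [mul_nonneg hτ0.le hm0]
  set σ : E d → ℝ := fun x => z * (1 - τ * (proj i0 i1 ⁻¹' U).indicator 1 x) with hσ
  have hσm : Measurable σ :=
    measurable_const.mul (measurable_const.sub
      (measurable_const.mul (measurable_const.indicator hB)))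
  have hσb : ∀ x, 1 - τ ≤ σ x ∧ σ x ≤ 1 + τ := by
    intro x
    simp only [hσ]
    by_cases hx : x ∈ proj i0 i1 ⁻¹' U
    · rw [indicator_of_mem hx, Pi.one_apply]
      constructor <;> nlinarith
    · rw [indicator_of_notMem hx]
      constructor <;> linarith
  have hP := isProb_unif (isCompact_cube (d := d)) interior_cube
  have key : ∀ S, MeasurableSet S →
      ∫ x in proj i0 i1 ⁻¹' S, σ x ∂(unif (cube d)) = z * bal U τ S := by
    intro S hS
    simp only [hσ]
    have hi : Integrable (fun x => τ * (proj i0 i1 ⁻¹' U).indicator (1 : E d → ℝ) x)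
        ((unif (cube d)).restrict (proj i0 i1 ⁻¹' S)) :=
      ((integrable_const (1 : ℝ)).indicator hB).const_mul τ
    rw [integral_const_mul, integral_sub (integrable_const _) hi, integral_const_mul,
      integral_indicator_one hB, integral_const, measureReal_restrict_apply hB,
      measureReal_restrict_apply MeasurableSet.univ, univ_inter, ← preimage_inter, inter_comm,
      unif_cube, vol_proj h01 hS, vol_proj h01 (hS.inter hUo.measurableSet), smul_eq_mul,
      mul_one]
    rfl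
  have hgood : GoodDensity (cube d) σ := by
    refine ⟨hσm, fun x => by linarith [(hσb x).1], fun x => by linarith [(hσb x).2], ?_⟩
    have := key univ MeasurableSet.univ
    rw [preimage_univ, Measure.restrict_univ, bal, univ_inter, probReal_univ, hz1] at this
    exact this
  have hP' := isProbabilityMeasure_src isCompact_cube interior_cube hgood
  refine ⟨σ, hσm, fun x => ?_, ?_⟩
  · have : τ ≤ ε := min_le_left _ _
    rw [abs_le]
    constructor <;> linarith [(hσb x).1, (hσb x).2]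
  · refine sharp_of h01 hG (fun p hp => (hU p hp).2.2) (src (cube d) σ) 2 ?_
      (src_compl isCompact_cube) hz2 fun S hS => ?_
    · unfold src
      calc _ ≤ (unif (cube d)).withDensity fun _ => ((2 : ℝ≥0) : ℝ≥0∞) := by
            refine withDensity_mono (ae_of_all _ fun x => ?_)
            refine ENNReal.ofReal_le_of_le_toReal ?_
            have := (hσb x).2
            norm_num
            linarith
        _ ≤ _ := by
            rw [withDensity_const, unif_cube]
            intro s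
            exact mul_le_mul' le_rfl (Measure.restrict_le_self s)
    · rw [src_real_apply hgood (hπ hS), key S hS]

theorem joined {U : Set (ℝ × ℝ)} {a b c e : ℝ}
    (h : ∀ x ∈ Icc a b, ∀ y ∈ Icc c e, (x, y) ∉ U) {u v : E d} (hu : u ∈ cube d)
    (hv : v ∈ cube d) (hu0 : u i0 ∈ Icc a b) (hu1 : u i1 ∈ Icc c e) (hv0 : v i0 ∈ Icc a b)
    (hv1 : v i1 ∈ Icc c e) : JoinedIn (cube d \ proj i0 i1 ⁻¹' U) u v := by
  refine JoinedIn.of_segment_subset ?_
  rintro _ ⟨s, t, hs, ht, hst, rfl⟩
  exact ⟨fun i => convex_Icc _ _ (hu i) (hv i) hs ht hst,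
    h _ (convex_Icc _ _ hu0 hv0 hs ht hst) _ (convex_Icc _ _ hu1 hv1 hs ht hst)⟩

theorem pathConnected (h01 : i0 ≠ i1) {U : Set (ℝ × ℝ)}
    (hU : ∀ p ∈ U, 1 / 3 < p.1 ∧ 1 / 16 < p.2 ∧ p.2 < 7 / 16)
    (hv : ∀ x y y' z, (x, y) ∈ U → (x, y') ∈ U → y ≤ z → z ≤ y' → (x, z) ∈ U) :
    IsPathConnected (cube d \ proj i0 i1 ⁻¹' U) := by
  set w : ℝ → ℝ → E d := fun s t =>
    WithLp.toLp 2 fun i => if i = i0 then s else if i = i1 then t else 0 with hw
  have w0 : ∀ s t, w s t i0 = s := fun s t => by simp [hw]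
  have w1 : ∀ s t, w s t i1 = t := fun s t => by simp [hw, h01.symm]
  have wc : ∀ s ∈ Icc (0 : ℝ) 1, ∀ t ∈ Icc (0 : ℝ) 1, w s t ∈ cube d := by
    intro s hs t ht i
    simp only [hw]
    split_ifs
    exacts [hs, ht, ⟨le_rfl, zero_le_one⟩]
  have z0 : (0 : ℝ) ∈ Icc (0 : ℝ) 1 := ⟨le_rfl, zero_le_one⟩
  have z1 : (1 : ℝ) ∈ Icc (0 : ℝ) 1 := ⟨zero_le_one, le_rfl⟩
  have j0 : ∀ t ∈ Icc (0 : ℝ) 1, JoinedIn (cube d \ proj i0 i1 ⁻¹' U) (w 0 0) (w 0 t) := by
    intro t ht
    refine joined (a := 0) (b := 0) (c := 0) (e := 1) (fun x hx y _ h => ?_) (wc _ z0 _ z0)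
      (wc _ z0 _ ht) (by simp [w0]) (by simp [w1]) (by simp [w0]) (by rwa [w1])
    linarith [(hU _ h).1, hx.2]
  have j1 : ∀ t, t = 0 ∨ t = 1 → ∀ s ∈ Icc (0 : ℝ) 1,
      JoinedIn (cube d \ proj i0 i1 ⁻¹' U) (w 0 0) (w s t) := by
    intro t ht s hs
    have ht' : t ∈ Icc (0 : ℝ) 1 := by rcases ht with e | e <;> rw [e] <;> assumption
    refine (j0 t ht').trans (joined (a := 0) (b := 1) (c := t) (e := t) (fun x _ y hy h => ?_)
      (wc _ z0 _ ht') (wc _ hs _ ht') (by simp [w0]) (by simp [w1]) (by rwa [w0]) (by simp [w1]))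
    rcases ht with e | e <;> linarith [(hU _ h).2.1, (hU _ h).2.2, hy.1, hy.2]
  refine ⟨w 0 0, (j0 0 z0).mem.1, ?_⟩
  rintro x ⟨hx, hxU⟩
  by_cases hd : ∃ y ≤ x i1, (x i0, y) ∈ U
  · obtain ⟨y, hy, hyU⟩ := hd
    refine (j1 1 (Or.inr rfl) _ (hx i0)).trans (joined (a := x i0) (b := x i0) (c := x i1)
      (e := 1) (fun s hs t ht h => ?_) (wc _ (hx i0) _ z1) hx (by simp [w0])
      (by rw [w1]; exact ⟨(hx i1).2, le_rfl⟩) (by simp) ⟨le_rfl, (hx i1).2⟩)
    rw [le_antisymm hs.2 hs.1] at h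
    exact hxU (hv _ _ _ _ hyU h hy ht.1)
  · refine (j1 0 (Or.inl rfl) _ (hx i0)).trans (joined (a := x i0) (b := x i0) (c := 0)
      (e := x i1) (fun s hs t ht h => ?_) (wc _ (hx i0) _ z0) hx (by simp [w0])
      (by rw [w1]; exact ⟨le_rfl, (hx i1).1⟩) (by simp) ⟨(hx i1).1, le_rfl⟩)
    rw [le_antisymm hs.2 hs.1] at h
    exact hd ⟨t, ht.2, h⟩

/-- Nonconvex sources. -/
theorem nonconvex (h01 : i0 ≠ i1) {ε : ℝ} (hε : 0 < ε) : ∃ K : Set (E d), IsCompact K ∧
    IsPathConnected K ∧ (interior K).Nonempty ∧ K ⊆ cube d ∧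
    volume (cube d \ K) ≤ ENNReal.ofReal ε ∧ SharpExponent (unif K) (1 / 4) := by
  set t := min ε 1 with ht
  have ht0 : 0 < t := lt_min hε one_pos
  have ht1 : t ≤ 1 := min_le_right _ _
  obtain ⟨U, hUo, hU, hm, hv, hG⟩ := exists_holes (θ := t / 6000) (τ := 1) (by positivity)
    (by linarith) (by linarith)
  have hm0 : 0 ≤ mm.real U := measureReal_nonneg
  have hπ := (continuous_proj i0 i1).measurable
  set K := cube d \ proj i0 i1 ⁻¹' U with hK
  have hKc : IsCompact K := isCompact_cube.diff (hUo.preimage (continuous_proj i0 i1))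
  have hKi : (interior K).Nonempty := interior_of fun x hx =>
    ⟨fun i => ⟨(hx i).1.le, by linarith [(hx i).2]⟩, fun h => by
      linarith [(hU _ h).1, (hx i0).2, show (proj i0 i1 x).1 = x i0 from rfl]⟩
  have hP := isProb_unif hKc hKi
  have key : ∀ S, MeasurableSet S → volume.real (K ∩ proj i0 i1 ⁻¹' S) = bal U 1 S := by
    intro S hS
    have e : K ∩ proj i0 i1 ⁻¹' S = proj i0 i1 ⁻¹' (S \ U) ∩ cube d := by
      ext x
      simp only [hK, mem_inter_iff, mem_diff, mem_preimage]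
      tauto
    rw [e, ← measureReal_restrict_apply (hπ (hS.diff hUo.measurableSet)),
      vol_proj h01 (hS.diff hUo.measurableSet), bal, one_mul,
      ← measureReal_inter_add_diff (s := S) hUo.measurableSet]
    ring
  have hvol : volume.real K = 1 - mm.real U := by
    have := key univ MeasurableSet.univ
    rwa [preimage_univ, inter_univ, bal, univ_inter, probReal_univ, one_mul] at this
  have h1 : 0 < volume.real K := by rw [hvol]; linarith
  refine ⟨K, hKc, pathConnected h01 hU hv, hKi, diff_subset, ?_, ?_⟩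
  · have e : cube d \ K = proj i0 i1 ⁻¹' U ∩ cube d := by
      rw [hK, diff_diff_right_self, inter_comm]
    rw [e, ← Measure.restrict_apply (hπ hUo.measurableSet), ← Measure.map_apply hπ
      hUo.measurableSet, ← map_proj h01, ← ofReal_measureReal]
    refine ENNReal.ofReal_le_ofReal ?_
    have : t ≤ ε := min_le_left _ _
    linarith
  · refine sharp_of (z := (volume.real K)⁻¹) h01 hG (fun p hp => (hU p hp).2.2) (unif K)
      (volume K)⁻¹.toNNReal ?_ (measure_mono_null (compl_subset_compl.2 diff_subset)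
        (unif_compl hKc)) ((one_le_inv₀ h1).2 (by linarith)) fun S hS => ?_
    · have h0 : (volume K)⁻¹ ≠ ∞ := ENNReal.inv_ne_top.2 fun h => by
        rw [Measure.real, h] at h1
        simp at h1
      intro s
      change (volume K)⁻¹ * volume.restrict K s ≤ ((volume K)⁻¹.toNNReal : ℝ≥0∞) * volume s
      rw [ENNReal.coe_toNNReal h0]
      exact mul_le_mul' le_rfl (Measure.restrict_le_self s)
    · rw [← key S hS, unif, Measure.real, ProbabilityTheory.cond_apply hKc.measurableSet,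
        ENNReal.toReal_mul, ENNReal.toReal_inv]
      rfl

/-- The whole result. -/
theorem main (d : ℕ) (hd : 2 ≤ d) :
    (IsGreatest {α : ℝ | 0 < α ∧ α ≤ 1 ∧ Admissible d α} (1 / 3) ∧ ¬ Admissible d (1 / 2)) ∧
    (∀ ε : ℝ, 0 < ε → ∃ σ : E d → ℝ, Measurable σ ∧ (∀ x, |σ x - 1| ≤ ε) ∧
      SharpExponent ((unif (cube d)).withDensity fun x => ENNReal.ofReal (σ x)) (1 / 4)) ∧
    (∀ ε : ℝ, 0 < ε → ∃ K : Set (E d), IsCompact K ∧ IsPathConnected K ∧ (interior K).Nonempty ∧
      K ⊆ cube d ∧ volume (cube d \ K) ≤ ENNReal.ofReal ε ∧ SharpExponent (unif K) (1 / 4)) := by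
  have h01 : (⟨0, by omega⟩ : Fin d) ≠ ⟨1, by omega⟩ := by simp
  refine ⟨⟨isGreatest_third d hd, fun h => ?_⟩, fun ε hε => rough h01 hε,
    fun ε hε => nonconvex h01 hε⟩
  have := (isGreatest_third d hd).2 ⟨by norm_num, by norm_num, h⟩
  norm_num at this

end Vale.Agent.N074
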