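import Mathlib
import Vale.Agent.P074.H109.Main

/-!
# P074: measure estimates in the unit square, and strips cut out by increasing thresholds
-/

open MeasureTheory Set
open scoped ENNReal NNReal

namespace Vale.Agent.N074

/-- Lebesgue measure on the unit interval. -/
noncomputable def li : Measure ℝ := volume.restrict (Icc 0 1)

/-- Lebesgue measure on the unit square. -/
noncomputable def mm : Measure (ℝ × ℝ) := li.prod li

instance : IsProbabilityMeasure li := ⟨by simp [li]⟩

instance : IsProbabilityMeasure mm := by unfold mm; infer_instance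

/-- The closed unit square. -/
def Sq : Set (ℝ × ℝ) := {p | (0 ≤ p.1 ∧ p.1 ≤ 1) ∧ (0 ≤ p.2 ∧ p.2 ≤ 1)}

theorem ae_li : ∀ᵐ x ∂li, x ∈ Icc (0 : ℝ) 1 := ae_restrict_mem measurableSet_Icc

theorem ae_Sq : ∀ᵐ p ∂mm, p ∈ Sq := by
  have h1 : ∀ᵐ p ∂mm, p.1 ∈ Icc (0 : ℝ) 1 :=
    (Measure.quasiMeasurePreserving_fst (μ := li) (ν := li)).ae ae_li
  have h2 : ∀ᵐ p ∂mm, p.2 ∈ Icc (0 : ℝ) 1 :=
    (Measure.quasiMeasurePreserving_snd (μ := li) (ν := li)).ae ae_li
  filter_upwards [h1, h2] with p a b using ⟨a, b⟩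

theorem m_mono {S T : Set (ℝ × ℝ)} (h : ∀ p ∈ Sq, p ∈ S → p ∈ T) : mm.real S ≤ mm.real T := by
  refine ENNReal.toReal_mono (measure_ne_top _ _) (measure_mono_ae ?_)
  filter_upwards [ae_Sq] with p hp using h p hp

theorem m_congr {S T : Set (ℝ × ℝ)} (h : ∀ p ∈ Sq, p ∈ S ↔ p ∈ T) : mm.real S = mm.real T :=
  le_antisymm (m_mono fun p hp => (h p hp).1) (m_mono fun p hp => (h p hp).2)

theorem li_le (s : Set ℝ) : li s ≤ volume s := Measure.restrict_le_self s

theorem li_of_subset {s : Set ℝ} (hs : s ⊆ Icc 0 1) : li s = volume s := by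
  unfold li
  rw [Measure.restrict_apply' measurableSet_Icc, inter_eq_self_of_subset_left hs]

theorem m_prod (s t : Set ℝ) : mm (s ×ˢ t) = li s * li t := Measure.prod_prod s t

theorem m_box_le {a b c e : ℝ} (hab : a ≤ b) (hce : c ≤ e) :
    mm.real (Icc a b ×ˢ Icc c e) ≤ (b - a) * (e - c) := by
  have h : mm (Icc a b ×ˢ Icc c e) ≤ ENNReal.ofReal ((b - a) * (e - c)) := by
    rw [m_prod, ENNReal.ofReal_mul (sub_nonneg.2 hab), ← Real.volume_Icc, ← Real.volume_Icc]
    exact mul_le_mul' (li_le _) (li_le _)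
  exact ENNReal.toReal_le_of_le_ofReal (mul_nonneg (sub_nonneg.2 hab) (sub_nonneg.2 hce)) h

theorem m_box_eq {a b c e : ℝ} (ha : 0 ≤ a) (hab : a ≤ b) (hb : b ≤ 1) (hc : 0 ≤ c)
    (hce : c ≤ e) (he : e ≤ 1) : mm.real (Ioo a b ×ˢ Ioo c e) = (b - a) * (e - c) := by
  have h1 : Ioo a b ⊆ Icc 0 1 := fun x hx => ⟨ha.trans hx.1.le, hx.2.le.trans hb⟩
  have h2 : Ioo c e ⊆ Icc 0 1 := fun x hx => ⟨hc.trans hx.1.le, hx.2.le.trans he⟩
  rw [Measure.real, m_prod, li_of_subset h1, li_of_subset h2, Real.volume_Ioo, Real.volume_Ioo,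
    ENNReal.toReal_mul, ENNReal.toReal_ofReal (sub_nonneg.2 hab),
    ENNReal.toReal_ofReal (sub_nonneg.2 hce)]

/-- A band of vertical width `w` has measure at most `w`. -/
theorem m_band_le {S : Set (ℝ × ℝ)} (hS : MeasurableSet S) (a : ℝ → ℝ) {w : ℝ} (hw : 0 ≤ w)
    (h : ∀ p ∈ S, a p.1 ≤ p.2 ∧ p.2 ≤ a p.1 + w) : mm.real S ≤ w := by
  refine ENNReal.toReal_le_of_le_ofReal hw ?_
  unfold mm
  rw [Measure.prod_apply hS]
  calc ∫⁻ x, li (Prod.mk x ⁻¹' S) ∂li ≤ ∫⁻ _x, ENNReal.ofReal w ∂li := by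
        refine lintegral_mono fun x => (li_le _).trans ?_
        have : Prod.mk x ⁻¹' S ⊆ Icc (a x) (a x + w) := fun y hy => h (x, y) hy
        refine (measure_mono this).trans ?_
        rw [Real.volume_Icc, add_sub_cancel_left]
    _ = _ := by rw [lintegral_const, measure_univ, mul_one]

/-- A set which contains a band of vertical width `w` over the interval `[α, β]`. -/
theorem m_band_ge {S : Set (ℝ × ℝ)} (hS : MeasurableSet S) (a : ℝ → ℝ) {α β w : ℝ} (hw : 0 ≤ w)
    (hα : 0 ≤ α) (hαβ : α ≤ β) (hβ : β ≤ 1)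
    (ha : ∀ x, α ≤ x → x ≤ β → 0 ≤ a x ∧ a x + w ≤ 1)
    (h : ∀ x y, α ≤ x → x ≤ β → a x ≤ y → y ≤ a x + w → (x, y) ∈ S) :
    (β - α) * w ≤ mm.real S := by
  rw [Measure.real, ← ENNReal.ofReal_le_iff_le_toReal (measure_ne_top _ _)]
  unfold mm
  rw [Measure.prod_apply hS]
  have h1 : Icc α β ⊆ Icc 0 1 := Icc_subset_Icc hα hβ
  calc ENNReal.ofReal ((β - α) * w) = ∫⁻ _x in Icc α β, ENNReal.ofReal w ∂li := by
        rw [setLIntegral_const, li_of_subset h1, Real.volume_Icc, mul_comm,
          ENNReal.ofReal_mul hw]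
    _ ≤ ∫⁻ x in Icc α β, li (Prod.mk x ⁻¹' S) ∂li := by
        refine setLIntegral_mono' measurableSet_Icc fun x hx => ?_
        have h2 : Icc (a x) (a x + w) ⊆ Icc 0 1 :=
          Icc_subset_Icc (ha x hx.1 hx.2).1 (ha x hx.1 hx.2).2
        have h3 : Icc (a x) (a x + w) ⊆ Prod.mk x ⁻¹' S :=
          fun y hy => h x y hx.1 hx.2 hy.1 hy.2
        refine le_trans ?_ (measure_mono h3)
        rw [li_of_subset h2, Real.volume_Icc, add_sub_cancel_left]
    _ ≤ _ := setLIntegral_le_lintegral _ _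

/-- The area of a trapezoid. -/
theorem m_trap {a b : ℝ} (h0 : |b| / 4 ≤ a) (h1 : a + |b| / 4 ≤ 1) :
    mm.real {p : ℝ × ℝ | p.2 < 1 / 2 ∧ p.1 < a + b * (p.2 - 1 / 4)} = a / 2 := by
  have hS : MeasurableSet {p : ℝ × ℝ | p.2 < 1 / 2 ∧ p.1 < a + b * (p.2 - 1 / 4)} :=
    (measurableSet_lt measurable_snd measurable_const).inter
      (measurableSet_lt measurable_fst (by fun_prop))
  have hb : ∀ y ∈ Ico (0 : ℝ) (1 / 2), 0 ≤ a + b * (y - 1 / 4) ∧ a + b * (y - 1 / 4) ≤ 1 := by
    intro y hy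
    have h2 : |b * (y - 1 / 4)| ≤ |b| / 4 := by
      rw [abs_mul]
      have : |y - 1 / 4| ≤ 1 / 4 := abs_le.2 ⟨by linarith [hy.1], by linarith [hy.2]⟩
      nlinarith [abs_nonneg b]
    have := abs_le.1 h2
    constructor <;> linarith [this.1, this.2]
  have e : mm {p : ℝ × ℝ | p.2 < 1 / 2 ∧ p.1 < a + b * (p.2 - 1 / 4)} =
      ENNReal.ofReal (a / 2) := by
    unfold mm
    rw [Measure.prod_apply_symm hS]
    calc ∫⁻ y, li ((fun x => (x, y)) ⁻¹' {p : ℝ × ℝ | p.2 < 1 / 2 ∧ p.1 < a + b * (p.2 - 1 / 4)}) ∂li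
        = ∫⁻ y, (Ico (0 : ℝ) (1 / 2)).indicator
            (fun y => ENNReal.ofReal (a + b * (y - 1 / 4))) y ∂li := by
          refine lintegral_congr_ae ?_
          filter_upwards [ae_li] with y hy
          by_cases h : y < 1 / 2
          · have hm : y ∈ Ico (0 : ℝ) (1 / 2) := ⟨hy.1, h⟩
            rw [indicator_of_mem hm]
            have : (fun x => (x, y)) ⁻¹' {p : ℝ × ℝ | p.2 < 1 / 2 ∧ p.1 < a + b * (p.2 - 1 / 4)} =
                Iio (a + b * (y - 1 / 4)) := by
              ext x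
              exact ⟨fun h' => h'.2, fun h' => ⟨h, h'⟩⟩
            rw [this]
            unfold li
            rw [Measure.restrict_apply measurableSet_Iio]
            have e2 : Iio (a + b * (y - 1 / 4)) ∩ Icc 0 1 = Ico 0 (a + b * (y - 1 / 4)) := by
              ext x
              constructor
              · rintro ⟨h3, h4⟩
                exact ⟨h4.1, h3⟩
              · rintro ⟨h3, h4⟩
                exact ⟨h4, h3, h4.le.trans (hb y hm).2⟩
            rw [e2, Real.volume_Ico, sub_zero]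
          · rw [indicator_of_notMem (fun hm => h hm.2)]
            have : (fun x => (x, y)) ⁻¹' {p : ℝ × ℝ | p.2 < 1 / 2 ∧ p.1 < a + b * (p.2 - 1 / 4)} =
                ∅ := by
              ext x
              simp only [mem_preimage, mem_ofPred_eq, mem_empty_iff_false, iff_false]
              exact fun h' => h h'.1
            rw [this, measure_empty]
      _ = ∫⁻ y in Ico (0 : ℝ) (1 / 2), ENNReal.ofReal (a + b * (y - 1 / 4)) := by
          rw [lintegral_indicator measurableSet_Ico]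
          unfold li
          rw [Measure.restrict_restrict measurableSet_Ico, inter_eq_self_of_subset_left]
          exact fun y hy => ⟨hy.1, by linarith [hy.2]⟩
      _ = ENNReal.ofReal (∫ y in Ico (0 : ℝ) (1 / 2), (a + b * (y - 1 / 4))) := by
          rw [ofReal_integral_eq_lintegral_ofReal]
          · exact (Continuous.integrableOn_Icc (by fun_prop)).mono_set Ico_subset_Icc_self
          · filter_upwards [ae_restrict_mem measurableSet_Ico] with y hy using (hb y hy).1
      _ = _ := by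
          congr 1
          rw [integral_Ico_eq_integral_Ioo, ← integral_Ioc_eq_integral_Ioo,
            ← intervalIntegral.integral_of_le (by norm_num)]
          have : (fun y : ℝ => a + b * (y - 1 / 4)) = fun y => b * y + (a - b / 4) := by
            ext y; ring
          rw [this, intervalIntegral.integral_add (Continuous.intervalIntegrable (by fun_prop) _ _) (by simp),
            intervalIntegral.integral_const_mul, integral_id, intervalIntegral.integral_const]
          simp only [smul_eq_mul]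
          ring
  rw [Measure.real, e, ENNReal.toReal_ofReal]
  have := abs_nonneg b
  linarith

/-- A measurable set all of whose vertical slices have at most one point is null. -/
theorem m_null {S : Set (ℝ × ℝ)} (hS : MeasurableSet S)
    (h : ∀ x y y', (x, y) ∈ S → (x, y') ∈ S → y = y') : mm S = 0 := by
  unfold mm
  rw [Measure.prod_apply hS]
  have : ∀ x, li (Prod.mk x ⁻¹' S) = 0 := fun x =>
    le_antisymm ((li_le _).trans (le_of_eq (Set.Subsingleton.measure_zero
      (fun y hy y' hy' => h x y y' hy hy') _))) (zero_le)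
  simp [this]

/-- The sum of the positive parts of `x - e j`. -/
noncomputable def FF (N : ℕ) (e : ℕ → ℝ) (x : ℝ) : ℝ := ∑ j ∈ Finset.range N, max (x - e j) 0

/-- The number of thresholds `e j`, `j < N`, which are at most `x`. -/
noncomputable def ix (N : ℕ) (e : ℕ → ℝ) (x : ℝ) : ℕ :=
  ∑ j ∈ Finset.range N, if e j ≤ x then 1 else 0

theorem ix_eq (N : ℕ) (e : ℕ → ℝ) (x : ℝ) :
    ix N e x = ((Finset.range N).filter fun j => e j ≤ x).card := by
  rw [Finset.card_filter]
  rfl

theorem ix_le (N : ℕ) (e : ℕ → ℝ) (x : ℝ) : ix N e x ≤ N := by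
  rw [ix_eq]
  exact (Finset.card_filter_le _ _).trans (Finset.card_range N).le

theorem ix_le_iff {N : ℕ} {e : ℕ → ℝ} (he : Monotone e) (x : ℝ) {j : ℕ} (hj : j < N) :
    ix N e x ≤ j ↔ x < e j := by
  rw [ix_eq]
  constructor
  · intro h
    by_contra hc
    have hc' : e j ≤ x := not_lt.1 hc
    have : Finset.range (j + 1) ⊆ (Finset.range N).filter fun i => e i ≤ x := by
      intro i hi
      have hi' := Finset.mem_range.1 hi
      exact Finset.mem_filter.2 ⟨Finset.mem_range.2 (by omega),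
        (he (by omega : i ≤ j)).trans hc'⟩
    have h2 := Finset.card_le_card this
    rw [Finset.card_range] at h2
    omega
  · intro h
    have : ((Finset.range N).filter fun i => e i ≤ x) ⊆ Finset.range j := by
      intro i hi
      have hi' := (Finset.mem_filter.1 hi).2
      refine Finset.mem_range.2 ?_
      by_contra hc
      exact absurd ((he (not_lt.1 hc)).trans hi') (not_le.2 h)
    exact (Finset.card_le_card this).trans (Finset.card_range j).le

theorem sum_le_FF {N i : ℕ} (hi : i ≤ N) (e : ℕ → ℝ) (x : ℝ) :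
    ∑ j ∈ Finset.range i, (x - e j) ≤ FF N e x :=
  (Finset.sum_le_sum fun _ _ => le_max_left _ _).trans
    (Finset.sum_le_sum_of_subset_of_nonneg (Finset.range_mono hi) fun _ _ _ => le_max_right _ _)

theorem sum_ix {N : ℕ} {e : ℕ → ℝ} (he : Monotone e) (x : ℝ) :
    ∑ j ∈ Finset.range (ix N e x), (x - e j) = FF N e x := by
  unfold FF
  have hN := ix_le N e x
  rw [← Finset.sum_subset (Finset.range_mono hN)]
  · refine Finset.sum_congr rfl fun j hj => ?_
    have hj' := Finset.mem_range.1 hj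
    have : ¬ x < e j := fun h => absurd ((ix_le_iff (N := N) he x (by omega)).2 h) (by omega)
    rw [max_eq_left (by linarith [not_lt.1 this])]
  · intro j hj hj'
    have h1 := Finset.mem_range.1 hj
    have h2 : ix N e x ≤ j := by simpa using hj'
    exact max_eq_right (by linarith [(ix_le_iff he x h1).1 h2])

theorem FF_nonneg (N : ℕ) (e : ℕ → ℝ) (x : ℝ) : 0 ≤ FF N e x :=
  Finset.sum_nonneg fun _ _ => le_max_right _ _

theorem FF_le_add {N : ℕ} {e e' : ℕ → ℝ} {D : ℝ} (h : ∀ j, |e j - e' j| ≤ D) (x : ℝ) :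
    FF N e x ≤ FF N e' x + N * D := by
  unfold FF
  have : (N : ℝ) * D = ∑ _j ∈ Finset.range N, D := by simp
  rw [this, ← Finset.sum_add_distrib]
  refine Finset.sum_le_sum fun j _ => ?_
  have h1 := abs_le.1 (h j)
  have h2 : 0 ≤ D := (abs_nonneg _).trans (h j)
  exact max_le (by linarith [le_max_left (x - e' j) 0, h1.1])
    (by linarith [le_max_right (x - e' j) 0])

theorem FF_le {N : ℕ} {e : ℕ → ℝ} {x : ℝ} (h : ∀ j, x - e j ≤ 1) : FF N e x ≤ N := by
  unfold FF
  calc _ ≤ ∑ _j ∈ Finset.range N, (1 : ℝ) :=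
        Finset.sum_le_sum fun j _ => max_le (h j) zero_le_one
    _ = N := by simp

theorem FF_left {N : ℕ} {e : ℕ → ℝ} {x : ℝ} (h : ∀ j, x ≤ e j) : FF N e x = 0 :=
  Finset.sum_eq_zero fun j _ => max_eq_right (by linarith [h j])

theorem FF_right {N : ℕ} {e : ℕ → ℝ} {x : ℝ} (h : ∀ j < N, e j ≤ x) :
    FF N e x = ∑ j ∈ Finset.range N, (x - e j) :=
  Finset.sum_congr rfl fun j hj => max_eq_left (by linarith [h j (Finset.mem_range.1 hj)])

end Vale.Agent.N074
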