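import Vale.Agent.N074.Cells

/-!
# P074: one scale. Small holes restore the masses of the cells
-/

open MeasureTheory Set
open scoped ENNReal NNReal

namespace Vale.Agent.N074

variable {N : ℕ} {θ η A s c τ : ℝ}

/-- Cell index for vertical faces. -/
noncomputable abbrev iu (N : ℕ) (η A s : ℝ) : ℝ × ℝ → ℕ := cellIx N η A (2 * s) 0 0 (1 / 2)

/-- Cell index for tilted faces. -/
noncomputable abbrev iv (N : ℕ) (θ η A s c : ℝ) : ℝ × ℝ → ℕ :=
  cellIx N η A (2 * s) (θ * s) s c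

/-- The difference of the areas of the first cells. -/
noncomputable def gap (N : ℕ) (θ η A s c : ℝ) (j : ℕ) : ℝ :=
  mm.real {p | iu N η A s p ≤ j} - mm.real {p | iv N θ η A s c p ≤ j}

/-- An open box of area `|Δ| / τ` next to the abscissa `x₀`. -/
noncomputable def hole (x₀ s τ Δ σ : ℝ) : Set (ℝ × ℝ) :=
  Ioo (if 0 ≤ Δ then x₀ - s / 16 else x₀) ((if 0 ≤ Δ then x₀ - s / 16 else x₀) + s / 16) ×ˢ
    Ioo (if 0 ≤ σ * Δ then 1 / 16 else 3 / 8)
      ((if 0 ≤ σ * Δ then 1 / 16 else 3 / 8) + 16 * |Δ| / (τ * s))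

/-- The area of `S` when the part inside `U` is discounted by the factor `τ`. -/
noncomputable def bal (U : Set (ℝ × ℝ)) (τ : ℝ) (S : Set (ℝ × ℝ)) : ℝ :=
  mm.real S - τ * mm.real (S ∩ U)

theorem meas_le {I : ℝ × ℝ → ℕ} (hI : Measurable I) (j : ℕ) : MeasurableSet {p | I p ≤ j} :=
  hI (MeasurableSet.of_discrete (s := {n | n ≤ j}))

theorem m_union3 (S T V : Set (ℝ × ℝ)) :
    mm.real (S ∪ T ∪ V) ≤ mm.real S + mm.real T + mm.real V :=
  (measureReal_union_le _ _).trans (by linarith [measureReal_union_le (μ := mm) S T])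

namespace Par

variable (P : Par θ s η A N)
include P

theorem iu_le_iff {p : ℝ × ℝ} (hp : p ∈ Sq) {j : ℕ} (hj : j < N) : iu N η A s p ≤ j ↔
    p.2 - 1 / 2 < low N η A (2 * s) 0 0 p ∧ p.1 < cc A s j := by
  rw [cellIx_le_iff le_rfl (by linarith [P.s0]) hp hj, ee_zero]

theorem iv_le_iff {p : ℝ × ℝ} (hp : p ∈ Sq) {j : ℕ} (hj : j < N) : iv N θ η A s c p ≤ j ↔
    p.2 - c < low N η A (2 * s) (θ * s) s p ∧ p.1 < ee A (2 * s) (θ * s) s p.2 j :=
  cellIx_le_iff P.s0.le le_rfl hp hj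

theorem gap_le (hc : |c - 1 / 2| ≤ 2 * (θ * s)) {j : ℕ} (hj : j < N) :
    |gap N θ η A s c j| ≤ 20 * (θ * s) := by
  have hθs : 0 < θ * s := mul_pos P.θ0 P.s0
  have hc' := abs_le.1 hc
  have hs0 := P.s0
  have hs1 := P.s_le
  have hθ0 := P.θ0
  have hθ1 := P.θ1
  have hcj := P.cc_ge j
  have hcj' := P.cc_le hj
  have hA := P.hA
  have hB := P.hB
  have hθs' : θ * s ≤ s / 100 := by nlinarith
  set Pu := {p | iu N η A s p ≤ j} with hPu
  set Pv := {p | iv N θ η A s c p ≤ j} with hPv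
  set H : Set (ℝ × ℝ) := {p | p.2 < 1 / 2} with hH
  have hHm : MeasurableSet H := measurableSet_lt measurable_snd measurable_const
  set Band : Set (ℝ × ℝ) := {p | 1 / 2 + η * FF N (cc A s) p.1 - 4 * (θ * s) ≤ p.2 ∧
    p.2 ≤ 1 / 2 + η * FF N (cc A s) p.1 - 4 * (θ * s) + 8 * (θ * s)} with hBand
  have hFm : Measurable fun p : ℝ × ℝ => FF N (cc A s) p.1 := by
    unfold FF
    fun_prop
  have hb : mm.real Band ≤ 8 * (θ * s) :=
    m_band_le ((measurableSet_le (by fun_prop) measurable_snd).inter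
      (measurableSet_le measurable_snd (by fun_prop)))
      (fun x => 1 / 2 + η * FF N (cc A s) x - 4 * (θ * s)) (by linarith) fun p hp => hp
  set Box : Set (ℝ × ℝ) := Icc (cc A s j - s) (cc A s j + s) ×ˢ Icc (1 / 2) (1 / 2 + θ) with hBox
  have hx : mm.real Box ≤ 2 * (θ * s) :=
    (m_box_le (by linarith) (by linarith)).trans (le_of_eq (by ring))
  have hR : mm.real {p : ℝ × ℝ | p.2 < 1 / 2 ∧ p.1 < cc A s j + 0 * (p.2 - 1 / 4)} =
      cc A s j / 2 := m_trap (by rw [abs_zero]; linarith) (by rw [abs_zero]; linarith)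
  have habs : |(-1 : ℝ) ^ j * s| = s := by
    rw [abs_mul, abs_pow, abs_neg, abs_one, one_pow, one_mul, abs_of_pos hs0]
  have hR' : mm.real {p : ℝ × ℝ | p.2 < 1 / 2 ∧
      p.1 < (cc A s j + θ * s) + (-1) ^ j * s * (p.2 - 1 / 4)} = (cc A s j + θ * s) / 2 :=
    m_trap (by rw [habs]; linarith) (by rw [habs]; linarith)
  have hee : ∀ y, ee A (2 * s) (θ * s) s y j =
      (cc A s j + θ * s) + (-1) ^ j * s * (y - 1 / 4) := fun y => rfl
  -- outside the band the large cells agree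
  have hout : ∀ p ∈ Sq, p ∉ Band → (p.2 - 1 / 2 < low N η A (2 * s) 0 0 p ↔
      p.2 - c < low N η A (2 * s) (θ * s) s p) := by
    intro p hp hb
    have h1 := abs_le.1 (P.lv_near hp)
    rw [low_zero] at h1 ⊢
    simp only [hBand, mem_ofPred_eq, not_and_or, not_le] at hb
    constructor <;> intro h <;> rcases hb with hb | hb <;> linarith [h1.1, h1.2, hc'.1, hc'.2]
  have hbox : ∀ p ∈ Sq, p ∉ H → p.2 - 1 / 2 < low N η A (2 * s) 0 0 p →
      ¬ (p.1 < cc A s j ↔ p.1 < ee A (2 * s) (θ * s) s p.2 j) → p ∈ Box := by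
    intro p hp hH' h1 h2
    have h3 := abs_le.1 (P.ee_near hp.2.1 hp.2.2 j)
    have h4 := P.lu_le hp.1.2
    have h5 : 1 / 2 ≤ p.2 := not_lt.1 hH'
    refine ⟨⟨?_, ?_⟩, h5, by linarith⟩
    · by_contra h6
      exact h2 ⟨fun _ => by linarith [not_le.1 h6, h3.1], fun _ => by linarith [not_le.1 h6]⟩
    · by_contra h6
      exact h2 ⟨fun h => by linarith [not_le.1 h6], fun h => by linarith [not_le.1 h6, h3.2]⟩
  have e1 := measureReal_inter_add_diff (μ := mm) (s := Pu) hHm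
  have e2 := measureReal_inter_add_diff (μ := mm) (s := Pv) hHm
  have e3 : mm.real (Pu ∩ H) = cc A s j / 2 := by
    rw [← hR]
    refine m_congr fun p hp => ?_
    have := P.lu_nonneg p
    simp only [hPu, hH, mem_inter_iff, mem_ofPred_eq, P.iu_le_iff hp hj, zero_mul, add_zero]
    exact ⟨fun h => ⟨h.2, h.1.2⟩, fun h => ⟨⟨by linarith [h.1], h.2⟩, h.1⟩⟩
  have e4 : mm.real (Pv ∩ H) ≤ (cc A s j + θ * s) / 2 := by
    rw [← hR']
    refine m_mono fun p hp h => ?_
    exact ⟨h.2, ((P.iv_le_iff hp hj).1 h.1).2⟩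
  have e5 : (cc A s j + θ * s) / 2 ≤ mm.real (Pv ∩ H) + mm.real Band := by
    rw [← hR']
    refine le_trans (m_mono fun p hp h => ?_) (measureReal_union_le _ _)
    by_cases hb : p ∈ Band
    · exact Or.inr hb
    · refine Or.inl ⟨(P.iv_le_iff hp hj).2 ⟨(hout p hp hb).1 ?_, h.2⟩, h.1⟩
      have := P.lu_nonneg p
      linarith [h.1]
  have e6 : mm.real (Pu \ H) ≤ mm.real (Pv \ H) + mm.real Band + mm.real Box := by
    refine le_trans (m_mono fun p hp h => ?_) (m_union3 _ _ _)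
    have h1 := (P.iu_le_iff hp hj).1 h.1
    by_cases hb : p ∈ Band
    · exact Or.inl (Or.inr hb)
    by_cases h2 : p.1 < ee A (2 * s) (θ * s) s p.2 j
    · exact Or.inl (Or.inl ⟨(P.iv_le_iff hp hj).2 ⟨(hout p hp hb).1 h1.1, h2⟩, h.2⟩)
    · exact Or.inr (hbox p hp h.2 h1.1 fun h3 => h2 (h3.1 h1.2))
  have e7 : mm.real (Pv \ H) ≤ mm.real (Pu \ H) + mm.real Band + mm.real Box := by
    refine le_trans (m_mono fun p hp h => ?_) (m_union3 _ _ _)
    have h1 := (P.iv_le_iff hp hj).1 h.1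
    by_cases hb : p ∈ Band
    · exact Or.inl (Or.inr hb)
    have h4 := (hout p hp hb).2 h1.1
    by_cases h2 : p.1 < cc A s j
    · exact Or.inl (Or.inl ⟨(P.iu_le_iff hp hj).2 ⟨h4, h2⟩, h.2⟩)
    · exact Or.inr (hbox p hp h.2 h4 fun h3 => h2 (h3.2 h1.2))
  unfold gap
  rw [← hPu, ← hPv, abs_le]
  constructor <;> linarith

/-- The large cells differ on a set of area of order `θ² s`. -/
theorem effect (hc : |c - 1 / 2| ≤ 2 * (θ * s)) :
    ∃ B : Set (ℝ × ℝ), MeasurableSet B ∧ (∀ p ∈ B, 7 / 16 ≤ p.2) ∧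
      θ ^ 2 * s / 16 ≤ mm.real B ∧
      ∀ p ∈ B, ¬ (iu N η A s p = N + 1 ↔ iv N θ η A s c p = N + 1) := by
  have hθs : 0 < θ * s := mul_pos P.θ0 P.s0
  have hc' := abs_le.1 hc
  have hs0 := P.s0
  have hs1 := P.s_le
  have hθ0 := P.θ0
  have hθ1 := P.θ1
  have hA := P.hA
  have hB := P.hB
  have hη0 := P.η0
  have hδ0 : 0 < θ ^ 2 * s := by positivity
  have hδ1 : θ ^ 2 * s ≤ 1 / 100 := by nlinarith
  have hζ0 : 0 < s * η := mul_pos hs0 hη0
  have hζ : s * η / 2 ≤ θ ^ 2 * s / 8 := by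
    have h1 := P.big
    have h2 := P.ηN
    have h3 : 4 * η ≤ θ ^ 2 := by nlinarith
    nlinarith
  refine ⟨{p | 7 / 16 ≤ p.2 ∧ ¬ (iu N η A s p = N + 1 ↔ iv N θ η A s c p = N + 1)}, ?_,
    fun p hp => hp.1, ?_, fun p hp => hp.2⟩
  · refine (measurableSet_le measurable_const measurable_snd).inter (MeasurableSet.compl ?_)
    exact MeasurableSet.iff (measurable_cellIx (measurableSet_singleton (N + 1)))
      (measurable_cellIx (measurableSet_singleton (N + 1)))
  have hm : MeasurableSet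
      {p | 7 / 16 ≤ p.2 ∧ ¬ (iu N η A s p = N + 1 ↔ iv N θ η A s c p = N + 1)} := by
    refine (measurableSet_le measurable_const measurable_snd).inter (MeasurableSet.compl ?_)
    exact MeasurableSet.iff (measurable_cellIx (measurableSet_singleton (N + 1)))
      (measurable_cellIx (measurableSet_singleton (N + 1)))
  by_cases ht : θ ^ 2 * s / 2 ≤ c - 1 / 2
  · refine le_trans (le_of_eq (by ring)) (m_band_ge hm (fun _ => 1 / 2) (α := 0) (β := 1 / 4)
      (w := θ ^ 2 * s / 4) (by positivity) le_rfl (by norm_num) (by norm_num)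
      (fun x _ _ => ⟨by norm_num, by linarith⟩) fun x y hx0 hx1 hy0 hy1 => ⟨?_, ?_⟩)
    · change 7 / 16 ≤ y
      linarith
    have hy1' : y ≤ 1 := by linarith
    have h1 : FF N (cc A s) x = 0 := FF_left fun j => by linarith [P.cc_ge j]
    have h2 : FF N (ee A (2 * s) (θ * s) s y) x = 0 := FF_left fun j => by
      have := abs_le.1 (P.ee_near (y := y) (by linarith) hy1' j)
      linarith [P.cc_ge j, this.1]
    rw [cellIx_top, cellIx_top, low_zero]
    simp only [low, h1, h2, mul_zero, add_zero]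
    intro h
    have h3 := h.1 (by linarith)
    have h4 : 0 ≤ s * η / 2 * (y - 1 / 4) := mul_nonneg (by linarith) (by linarith)
    linarith
  · have ht' := not_le.1 ht
    have hF : ∀ x, x ≤ 1 → 0 ≤ η * FF N (cc A s) x ∧ η * FF N (cc A s) x ≤ θ := fun x hx =>
      ⟨by have := P.lu_nonneg (x, 0); rwa [low_zero] at this,
        by have := P.lu_le (p := (x, 0)) hx; rwa [low_zero] at this⟩
    refine le_trans (le_of_eq (by ring)) (m_band_ge hm
      (fun x => 1 / 2 + η * FF N (cc A s) x - 3 * (θ ^ 2 * s) / 8) (α := 3 / 4) (β := 1)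
      (w := θ ^ 2 * s / 4) (by positivity) (by norm_num) (by norm_num) le_rfl
      (fun x _ hx => ⟨by linarith [(hF x hx).1], by linarith [(hF x hx).2]⟩)
      fun x y hx0 hx1 hy0 hy1 => ⟨?_, ?_⟩)
    · change 7 / 16 ≤ y
      linarith [(hF x hx1).1]
    have hy0' : 0 ≤ y := by linarith [(hF x hx1).1]
    have hy1' : y ≤ 1 := by linarith [(hF x hx1).2]
    have h1 : FF N (cc A s) x = ∑ j ∈ Finset.range N, (x - cc A s j) :=
      FF_right fun j hj => by linarith [P.cc_le hj]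
    have h2 : FF N (ee A (2 * s) (θ * s) s y) x =
        ∑ j ∈ Finset.range N, (x - ee A (2 * s) (θ * s) s y j) := FF_right fun j hj => by
      have := abs_le.1 (P.ee_near hy0' hy1' j)
      linarith [P.cc_le hj, this.2]
    have h3 : FF N (ee A (2 * s) (θ * s) s y) x = FF N (cc A s) x - N * (θ * s) := by
      have h4 : ∑ j ∈ Finset.range N, (-1 : ℝ) ^ j = 0 := by
        rw [neg_one_geom_sum, if_pos P.ev]
      have h5 : ∀ j, x - ee A (2 * s) (θ * s) s y j =
          (x - cc A s j) - θ * s - (-1) ^ j * (s * (y - 1 / 4)) := fun j => by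
        simp only [ee, cc]
        ring
      rw [h1, h2]
      simp only [h5]
      rw [Finset.sum_sub_distrib, Finset.sum_sub_distrib,
        ← Finset.sum_mul (f := fun j => (-1 : ℝ) ^ j), h4]
      simp
    have h6 : η * (N * (θ * s)) = θ ^ 2 * s := by
      rw [← mul_assoc, P.ηN]; ring
    rw [cellIx_top, cellIx_top, low_zero]
    simp only [low, h3, mul_sub, h6]
    intro h
    have h7 : s * η / 2 * y ≤ s * η / 2 := by nlinarith
    have h8 := h.2 (by linarith)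
    linarith

theorem hole_height (hτ : 6000 * θ ≤ τ) {Δ : ℝ} (hΔ : |Δ| ≤ 20 * (θ * s)) :
    0 ≤ 16 * |Δ| / (τ * s) ∧ 16 * |Δ| / (τ * s) ≤ 320 * θ / τ ∧ 320 * θ / τ ≤ 1 / 16 := by
  have hθ0 := P.θ0
  have hs0 := P.s0
  have hτ0 : 0 < τ := by linarith
  refine ⟨by positivity, ?_, ?_⟩
  · rw [div_le_div_iff₀ (by positivity) hτ0]
    nlinarith [mul_le_mul_of_nonneg_right hΔ hτ0.le]
  · rw [div_le_iff₀ hτ0]
    linarith

theorem hole_sub (hτ : 6000 * θ ≤ τ) {x₀ Δ σ : ℝ} (hΔ : |Δ| ≤ 20 * (θ * s)) {p : ℝ × ℝ}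
    (hp : p ∈ hole x₀ s τ Δ σ) :
    |p.1 - x₀| < s / 16 ∧ ((1 / 16 < p.2 ∧ p.2 < 1 / 16 + 320 * θ / τ) ∨
      (3 / 8 < p.2 ∧ p.2 < 3 / 8 + 320 * θ / τ)) := by
  obtain ⟨-, h1, -⟩ := P.hole_height hτ hΔ
  obtain ⟨⟨h2, h3⟩, h4, h5⟩ := hp
  have hs0 := P.s0
  constructor
  · rw [abs_lt]
    split_ifs at h2 h3 <;> constructor <;> linarith
  · split_ifs at h4 h5
    · exact Or.inl ⟨h4, by linarith⟩
    · exact Or.inr ⟨h4, by linarith⟩

theorem hole_area (hτ : 6000 * θ ≤ τ) {Δ σ : ℝ} (hΔ : |Δ| ≤ 20 * (θ * s)) {j : ℕ} (hj : j < N) :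
    τ * mm.real (hole (cc A s j) s τ Δ σ) = |Δ| := by
  obtain ⟨h0, h1, h2⟩ := P.hole_height hτ hΔ
  have hs0 := P.s0
  have hθ0 := P.θ0
  have hτ0 : 0 < τ := by linarith
  have := P.cc_ge j
  have := P.cc_le hj
  have := P.hA
  have := P.hB
  unfold hole
  rw [m_box_eq]
  · field_simp
    ring
  all_goals split_ifs <;> linarith

/-- On the hole number `j` exactly one of the two conditions holds, according to the sign. -/
theorem hole_sign (hτ : 6000 * θ ≤ τ) {Δ : ℝ} (hΔ : |Δ| ≤ 20 * (θ * s)) {j : ℕ} {p : ℝ × ℝ}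
    (hp : p ∈ hole (cc A s j) s τ Δ ((-1) ^ j)) :
    (0 ≤ Δ → p.1 < cc A s j ∧ ¬ p.1 < ee A (2 * s) (θ * s) s p.2 j) ∧
    (¬ 0 ≤ Δ → ¬ p.1 < cc A s j ∧ p.1 < ee A (2 * s) (θ * s) s p.2 j) := by
  obtain ⟨h0, h1, h2⟩ := P.hole_height hτ hΔ
  obtain ⟨⟨h3, h4⟩, h5, h6⟩ := hp
  have hs0 := P.s0
  have hθ0 := P.θ0
  have hθ1 := P.θ1
  have hΔ0 : Δ ≠ 0 := by
    rintro rfl
    simp only [abs_zero, mul_zero, zero_div, add_zero] at h5 h6
    linarith
  have hee : ee A (2 * s) (θ * s) s p.2 j =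
      (cc A s j + θ * s) + (-1) ^ j * s * (p.2 - 1 / 4) := rfl
  have hθs : θ * s ≤ s / 100 := by nlinarith
  have hθs0 : 0 < θ * s := mul_pos hθ0 hs0
  rw [hee]
  constructor
  · intro hd
    have hd' : 0 < Δ := lt_of_le_of_ne hd hΔ0.symm
    rw [if_pos hd] at h3 h4
    refine ⟨by linarith, not_lt.2 ?_⟩
    rcases sg_cases j with e | e <;> rw [e] at h5 h6 ⊢
    · rw [if_pos (by linarith)] at h5 h6
      nlinarith
    · rw [if_neg (by linarith)] at h5 h6
      nlinarith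
  · intro hd
    have hd' : Δ < 0 := not_le.1 hd
    rw [if_neg hd] at h3 h4
    refine ⟨not_lt.2 h3.le, ?_⟩
    rcases sg_cases j with e | e <;> rw [e] at h5 h6 ⊢
    · rw [if_neg (by linarith)] at h5 h6
      nlinarith
    · rw [if_pos (by linarith)] at h5 h6
      nlinarith

/-- With the holes, the first cells have the same masses. -/
theorem balance (hτ : 6000 * θ ≤ τ) (hc : |c - 1 / 2| ≤ 2 * (θ * s))
    (hc2 : mm.real {p | low N η A (2 * s) (θ * s) s p ≤ p.2 - c} =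
      mm.real {p | low N η A (2 * s) 0 0 p ≤ p.2 - 1 / 2})
    {U : Set (ℝ × ℝ)} (hU1 : ∀ p ∈ U, p.2 < 7 / 16)
    (hU2 : ∀ l < N, hole (cc A s l) s τ (gap N θ η A s c l) ((-1) ^ l) ⊆ U)
    (hU3 : ∀ p ∈ U, A ≤ p.1 → p.1 < A + (N + 1) * (2 * s) →
      ∃ l < N, p ∈ hole (cc A s l) s τ (gap N θ η A s c l) ((-1) ^ l)) (j : ℕ) :
    bal U τ {p | iu N η A s p ≤ j} = bal U τ {p | iv N θ η A s c p ≤ j} := by
  have hs0 := P.s0
  have hθ0 := P.θ0
  have hc' := abs_le.1 hc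
  have hθs : θ * s ≤ 1 / 1000 := by nlinarith [P.θ1, P.s_le]
  have hu : ∀ p ∈ U, p.2 - 1 / 2 < low N η A (2 * s) 0 0 p := fun p hp => by
    linarith [hU1 p hp, P.lu_nonneg p]
  have hv : ∀ p ∈ Sq, p ∈ U → p.2 - c < low N η A (2 * s) (θ * s) s p := fun p hp hpU => by
    have := abs_le.1 (P.lv_near hp)
    linarith [hU1 p hpU, P.lu_nonneg p, this.1, hc'.1]
  rcases lt_trichotomy j N with hj | hj | hj
  · set Δ := gap N θ η A s c j with hΔ
    have hΔb : |Δ| ≤ 20 * (θ * s) := P.gap_le hc hj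
    set H := hole (cc A s j) s τ Δ ((-1) ^ j) with hH
    have hHm : MeasurableSet H := measurableSet_Ioo.prod measurableSet_Ioo
    have hHU : H ⊆ U := hU2 j hj
    have harea : τ * mm.real H = |Δ| := P.hole_area hτ hΔb hj
    have e1 := measureReal_inter_add_diff (μ := mm) (s := {p | iu N η A s p ≤ j} ∩ U) hHm
    have e2 := measureReal_inter_add_diff (μ := mm) (s := {p | iv N θ η A s c p ≤ j} ∩ U) hHm
    have e3 : mm.real (({p | iu N η A s p ≤ j} ∩ U) \ H) =
        mm.real (({p | iv N θ η A s c p ≤ j} ∩ U) \ H) := by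
      refine m_congr fun p hp => ?_
      have key : p ∈ U → p ∉ H → (p.1 < cc A s j ↔ p.1 < ee A (2 * s) (θ * s) s p.2 j) := by
        intro hpU hpH
        have h1 := abs_le.1 (P.ee_near hp.2.1 hp.2.2 j)
        have h2 := P.cc_ge j
        have h3 := P.cc_le hj
        by_cases ha : A ≤ p.1
        swap
        · exact ⟨fun _ => by linarith [not_le.1 ha, h1.1], fun _ => by linarith [not_le.1 ha]⟩
        by_cases hb : p.1 < A + (N + 1) * (2 * s)
        swap
        · exact ⟨fun _ => by linarith [not_lt.1 hb], fun _ => by linarith [not_lt.1 hb, h1.2]⟩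
        obtain ⟨l, hl, hpl⟩ := hU3 p hpU ha hb
        have h4 := abs_lt.1 (P.hole_sub hτ (P.gap_le hc hl) hpl).1
        rcases lt_trichotomy l j with h5 | h5 | h5
        · have := P.cc_lt h5
          exact ⟨fun _ => by linarith [h4.2, h1.1], fun _ => by linarith [h4.2]⟩
        · subst h5
          exact absurd hpl hpH
        · have := P.cc_lt h5
          exact ⟨fun _ => by linarith [h4.1], fun _ => by linarith [h4.1, h1.2]⟩
      constructor
      · rintro ⟨⟨h1, h2⟩, h3⟩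
        exact ⟨⟨(P.iv_le_iff hp hj).2 ⟨hv p hp h2,
          (key h2 h3).1 ((P.iu_le_iff hp hj).1 h1).2⟩, h2⟩, h3⟩
      · rintro ⟨⟨h1, h2⟩, h3⟩
        exact ⟨⟨(P.iu_le_iff hp hj).2 ⟨hu p h2,
          (key h2 h3).2 ((P.iv_le_iff hp hj).1 h1).2⟩, h2⟩, h3⟩
    have hg : Δ = mm.real {p | iu N η A s p ≤ j} - mm.real {p | iv N θ η A s c p ≤ j} := rfl
    unfold bal
    by_cases hd : 0 ≤ Δ
    · have e4 : mm.real ({p | iu N η A s p ≤ j} ∩ U ∩ H) = mm.real H :=
        m_congr fun p hp => ⟨fun h => h.2, fun h => ⟨⟨(P.iu_le_iff hp hj).2 ⟨hu p (hHU h),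
          ((P.hole_sign hτ hΔb h).1 hd).1⟩, hHU h⟩, h⟩⟩
      have e5 : mm.real ({p | iv N θ η A s c p ≤ j} ∩ U ∩ H) = mm.real (∅ : Set (ℝ × ℝ)) :=
        m_congr fun p hp => ⟨fun h => ((P.hole_sign hτ hΔb h.2).1 hd).2
          ((P.iv_le_iff hp hj).1 h.1.1).2, fun h => h.elim⟩
      rw [measureReal_empty] at e5
      rw [abs_of_nonneg hd] at harea
      rw [← e1, ← e2, e3, e4, e5]
      linarith
    · have e4 : mm.real ({p | iv N θ η A s c p ≤ j} ∩ U ∩ H) = mm.real H :=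
        m_congr fun p hp => ⟨fun h => h.2, fun h => ⟨⟨(P.iv_le_iff hp hj).2 ⟨hv p hp (hHU h),
          ((P.hole_sign hτ hΔb h).2 hd).2⟩, hHU h⟩, h⟩⟩
      have e5 : mm.real ({p | iu N η A s p ≤ j} ∩ U ∩ H) = mm.real (∅ : Set (ℝ × ℝ)) :=
        m_congr fun p hp => ⟨fun h => ((P.hole_sign hτ hΔb h.2).2 hd).1
          ((P.iu_le_iff hp hj).1 h.1.1).2, fun h => h.elim⟩
      rw [measureReal_empty] at e5
      rw [abs_of_neg (not_le.1 hd)] at harea
      rw [← e1, ← e2, e3, e4, e5]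
      linarith
  · subst hj
    have e1 : {p | iu j η A s p ≤ j} = {p | low j η A (2 * s) 0 0 p ≤ p.2 - 1 / 2}ᶜ := by
      ext p
      exact cellIx_le_N p
    have e2 : {p | iv j θ η A s c p ≤ j} =
        {p | low j η A (2 * s) (θ * s) s p ≤ p.2 - c}ᶜ := by
      ext p
      exact cellIx_le_N p
    have e3 : mm.real ({p | iu j η A s p ≤ j} ∩ U) = mm.real ({p | iv j θ η A s c p ≤ j} ∩ U) :=
      m_congr fun p hp => ⟨fun h => ⟨(cellIx_le_N p).2 (not_le.2 (hv p hp h.2)), h.2⟩,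
        fun h => ⟨(cellIx_le_N p).2 (not_le.2 (hu p h.2)), h.2⟩⟩
    unfold bal
    rw [e3, e1, e2, measureReal_compl (measurableSet_le continuous_low.measurable (by fun_prop)),
      measureReal_compl (measurableSet_le continuous_low.measurable (by fun_prop)), hc2]
  · have e1 : {p | iu N η A s p ≤ j} = univ :=
      eq_univ_of_forall fun p => (cellIx_le p).trans hj
    have e2 : {p | iv N θ η A s c p ≤ j} = univ :=
      eq_univ_of_forall fun p => (cellIx_le p).trans hj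
    rw [e1, e2]

end Par

end Vale.Agent.N074
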